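import Mathlib.Geometry.Manifold.Riemannian.Basic
import Mathlib.Geometry.Manifold.MFDeriv.NormedSpace

open scoped ContDiff Manifold RealInnerProductSpace ENNReal
open Bundle

namespace Vale.Agent.N205

universe u

variable {E : Type} [NormedAddCommGroup E] [NormedSpace ℝ E]
  {W : Type} [NormedAddCommGroup W] [InnerProductSpace ℝ W]
  {M : Type u} [TopologicalSpace M] [ChartedSpace E M] [IsManifold 𝓘(ℝ, E) ∞ M]

/-- `X` is a `C^∞` isometric immersion of `(M, g)` -/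
def IsIsometricImmersion
    (g : ContMDiffRiemannianMetric 𝓘(ℝ, E) ∞ E (fun x : M => TangentSpace 𝓘(ℝ, E) x))
    (X : M → W) : Prop :=
  ContMDiff 𝓘(ℝ, E) 𝓘(ℝ, W) ∞ X ∧ ∀ (m : M) (v w : TangentSpace 𝓘(ℝ, E) m),
    ⟪mvfderiv 𝓘(ℝ, E) X m v, mvfderiv 𝓘(ℝ, E) X m w⟫ = g.inner m v w

/-- the Riemannian distance of `g` -/
noncomputable def riemDist
    (g : ContMDiffRiemannianMetric 𝓘(ℝ, E) ∞ E (fun x : M => TangentSpace 𝓘(ℝ, E) x))
    (x y : M) : ℝ≥0∞ :=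
  letI : RiemannianBundle (fun x : M => TangentSpace 𝓘(ℝ, E) x) := ⟨g.toRiemannianMetric⟩
  Manifold.riemannianEDist 𝓘(ℝ, E) x y

/-- `g` is a `C^∞` Riemannian metric on the subset `U` of a vector space -/
def IsMetricOn (g : E → E →L[ℝ] E →L[ℝ] ℝ) (U : Set E) : Prop :=
  ContDiffOn ℝ ∞ g U ∧ ∀ y ∈ U, (∀ v w, g y v w = g y w v) ∧ ∀ v, v ≠ 0 → 0 < g y v v

/-- `F` is short for `g` at the points of `K` -/
def IsShortOn (g : E → E →L[ℝ] E →L[ℝ] ℝ) (F : E → W) (K : Set E) : Prop :=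
  ∀ y ∈ K, ∀ v, ‖fderiv ℝ F y v‖ ^ 2 ≤ g y v v

/-- `X` is isometric for `g` at the points of `V` -/
def IsIsometricOn (g : E → E →L[ℝ] E →L[ℝ] ℝ) (X : E → W) (V : Set E) : Prop :=
  ∀ y ∈ V, ∀ v w, ⟪fderiv ℝ X y v, fderiv ℝ X y w⟫ = g y v w

end Vale.Agent.N205
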