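import Vale.Agent.N205.Nash

/-!
P205: the uniform closure of the smooth isometric immersions into `ℝ⁴` is the set of 1-Lipschitz
maps.
-/

noncomputable section

set_option linter.unusedSectionVars false

open scoped ContDiff Manifold Topology RealInnerProductSpace ENNReal NNReal
open Set Filter

namespace Vale.Agent.N205

open Vale.Agent.P205.F Vale.Agent.P205.TW Vale.Agent.P205.TW.Data Vale.Agent.P205.TW.DC
open Vale.Agent.P205.H366 Vale.Agent.P205.H308

universe u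

variable {E : Type} [NormedAddCommGroup E] [NormedSpace ℝ E] [FiniteDimensional ℝ E]
  {M : Type u} [TopologicalSpace M] [ChartedSpace E M] [IsManifold 𝓘(ℝ, E) ∞ M] [CompactSpace M]
  [T2Space M] (K : Cov E M) (b : Module.Basis (Fin 2) ℝ E) (g : Met E M)

theorem sm_csmul (c : ℝ) {F : M → R4} (hF : ContMDiff 𝓘(ℝ, E) 𝓘(ℝ, R4) ∞ F) :
    ContMDiff 𝓘(ℝ, E) 𝓘(ℝ, R4) ∞ (fun p => c • F p) :=
  (contMDiff_const (c := c) (I' := 𝓘(ℝ, ℝ))).smul hF

theorem exists_sup {F : M → R4} (hF : Continuous F) : ∃ B : ℝ, 0 < B ∧ ∀ p, ‖F p‖ ≤ B := by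
  obtain ⟨B, hB⟩ := isCompact_univ.exists_bound_of_continuousOn hF.continuousOn
  exact ⟨|B| + 1, by positivity, fun p =>
    (hB p (mem_univ p)).trans ((le_abs_self B).trans (by linarith))⟩

/-- a small and very short immersion -/
theorem start (H : ImmN E M) {η δ : ℝ} (hη : 0 < η) (hδ : 0 < δ) :
    ∃ H' : ImmN E M, (∀ p, ‖H'.F p‖ ≤ η) ∧
      ∀ p (v : E), ‖Cov.dfE (E := E) H'.F p v‖ ≤ δ * √(Cov.gE g p v v) := by
  obtain ⟨B, hB0, hB⟩ := exists_sup H.smF.continuous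
  obtain ⟨C, hC0, hC⟩ := bound g (H.smF.of_le (m := 1) (by simp))
  set s := min (η / B) (δ / C) with hs
  have hs0 : 0 < s := lt_min (by positivity) (by positivity)
  have hs1 : s * B ≤ η := (le_div_iff₀ hB0).1 (min_le_left _ _)
  have hs2 : s * C ≤ δ := (le_div_iff₀ hC0).1 (min_le_right _ _)
  have hd : ∀ p (v : E), Cov.dfE (E := E) (fun p => s • H.F p) p v =
      s • Cov.dfE (E := E) H.F p v := fun p v =>
    dfE_const_smul s ((H.smF p).mdifferentiableAt (by simp)) v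
  refine ⟨⟨fun p => s • H.F p, H.ξ, sm_csmul s H.smF, H.smξ, fun p => ?_, H.unit,
    fun p v => ?_⟩, fun p => ?_, fun p v => ?_⟩
  · refine (injective_iff_map_eq_zero
      (Cov.dfE (E := E) (fun p => s • H.F p) p : E →L[ℝ] _)).2 fun v hv => ?_
    rw [hd, smul_eq_zero] at hv
    rcases hv with hv | hv
    · exact (hs0.ne' hv).elim
    · exact H.imm p (hv.trans (map_zero _).symm)
  · have h1 : ⟪H.ξ p, Cov.dfE (E := E) H.F p v⟫ = 0 := H.perp p v
    have h2 : ⟪H.ξ p, s • Cov.dfE (E := E) H.F p v⟫ = 0 := by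
      rw [real_inner_smul_right, h1, mul_zero]
    exact (congrArg (fun z => ⟪H.ξ p, z⟫) (hd p v)).trans h2
  · show ‖s • H.F p‖ ≤ η
    rw [norm_smul, Real.norm_of_nonneg hs0.le]
    exact (mul_le_mul_of_nonneg_left (hB p) hs0.le).trans hs1
  · show ‖Cov.dfE (E := E) (fun p => s • H.F p) p v‖ ≤ _
    rw [hd, norm_smul, Real.norm_of_nonneg hs0.le]
    refine (mul_le_mul_of_nonneg_left (hC p v) hs0.le).trans ?_
    rw [← mul_assoc]
    exact mul_le_mul_of_nonneg_right hs2 (Real.sqrt_nonneg _)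

include K b in
/-- one step: a Nash stage, then the addition of `a F` -/
theorem step [Nonempty M] {F : M → R4} (hF : ContMDiff 𝓘(ℝ, E) 𝓘(ℝ, R4) ∞ F) {θ a δ U η : ℝ}
    (hθ : θ ≤ 1) (hFs : ∀ p (v : E), ‖Cov.dfE (E := E) F p v‖ ≤ θ * √(Cov.gE g p v v))
    (ha : 0 < a) (hδ : 0 < δ) (hU : δ ≤ U) (hη : 0 < η) (hηa : η ≤ a ^ 2) (H : ImmN E M)
    (hH : ∀ p (v : E), ‖Cov.dfE (E := E) H.F p v‖ ≤ U * √(Cov.gE g p v v)) :
    ∃ H' : ImmN E M, (∀ p, ‖H'.F p - (H.F p + a • F p)‖ ≤ η) ∧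
      ∀ p (v : E), ‖Cov.dfE (E := E) H'.F p v‖ ≤
        (U + (a * θ + 2 * a ^ 2 / δ)) * √(Cov.gE g p v v) := by
  have ha2 : 0 < a ^ 2 := by positivity
  obtain ⟨H1, h1, h2⟩ := nash K b g H (c := 3 * a ^ 2) hη (by linarith)
  have hΦ : ContMDiff 𝓘(ℝ, E) 𝓘(ℝ, R4) ∞ (fun p => a • F p) := sm_csmul a hF
  have hd : ∀ p (v : E), ‖Cov.dfE (E := E) (fun p => a • F p) p v‖ ≤
      a * (θ * √(Cov.gE g p v v)) := fun p v => by
    rw [dfE_const_smul a ((hF p).mdifferentiableAt (by simp)) v, norm_smul,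
      Real.norm_of_nonneg ha.le]
    exact mul_le_mul_of_nonneg_left (hFs p v) ha.le
  obtain ⟨H2, h3⟩ := perturb K b H1 hΦ (fun p v hv => by
    have h4 : 0 < Cov.gE g p v v := g.pos p v hv
    have h5 := (abs_le.1 (h2 p v)).1
    have h6 : a * (θ * √(Cov.gE g p v v)) ≤ a * √(Cov.gE g p v v) :=
      mul_le_mul_of_nonneg_left (mul_le_of_le_one_left (Real.sqrt_nonneg _) hθ) ha.le
    refine ((hd p v).trans h6).trans_lt (lt_of_pow_lt_pow_left₀ 2 (norm_nonneg _) ?_)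
    rw [mul_pow, Real.sq_sqrt h4.le]
    nlinarith [sq_nonneg ‖Cov.dfE (E := E) H.F p v‖, mul_le_mul_of_nonneg_right hηa h4.le,
      mul_pos ha2 h4])
  refine ⟨H2, fun p => ?_, fun p v => ?_⟩
  · rw [h3]
    simpa using h1 p
  · rw [h3, dfE_add ((H1.smF p).mdifferentiableAt (by simp))
      ((hΦ p).mdifferentiableAt (by simp))]
    have h4 := gE_nonneg g p v
    have h5 : ‖Cov.dfE (E := E) H1.F p v‖ ≤ (U + 2 * a ^ 2 / δ) * √(Cov.gE g p v v) := by
      have hU0 : 0 < U := hδ.trans_le hU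
      refine le_of_pow_le_pow_left₀ two_ne_zero (by positivity) ?_
      have h6 := (abs_le.1 (h2 p v)).2
      have h7 : ‖Cov.dfE (E := E) H.F p v‖ ^ 2 ≤ U ^ 2 * Cov.gE g p v v := by
        have := pow_le_pow_left₀ (norm_nonneg _) (hH p v) 2
        rwa [mul_pow, Real.sq_sqrt h4] at this
      have h8 : U ^ 2 + 4 * a ^ 2 ≤ (U + 2 * a ^ 2 / δ) ^ 2 := by
        have h9 : 1 ≤ U / δ := (one_le_div hδ).2 hU
        have e : (U + 2 * a ^ 2 / δ) ^ 2 =
            U ^ 2 + 4 * a ^ 2 * (U / δ) + (2 * a ^ 2 / δ) ^ 2 := by ring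
        rw [e]
        nlinarith [sq_nonneg (2 * a ^ 2 / δ)]
      rw [mul_pow, Real.sq_sqrt h4]
      nlinarith [mul_le_mul_of_nonneg_right hηa h4, mul_le_mul_of_nonneg_right h8 h4]
    refine (norm_add_le _ _).trans ((add_le_add h5 (hd p v)).trans (le_of_eq ?_))
    ring

include K b in
/-- **strictly short maps are limits of strictly short immersions with a normal field** -/
theorem grow [Nonempty M] (H0 : ImmN E M) {F : M → R4} (hF : ContMDiff 𝓘(ℝ, E) 𝓘(ℝ, R4) ∞ F)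
    {θ : ℝ} (hθ0 : 0 ≤ θ) (hθ : θ < 1)
    (hFs : ∀ p (v : E), ‖Cov.dfE (E := E) F p v‖ ≤ θ * √(Cov.gE g p v v)) {ε : ℝ} (hε : 0 < ε) :
    ∃ H : ImmN E M, (∀ p, ‖H.F p - F p‖ ≤ ε) ∧ StrictShort g H.F := by
  set δ := (1 - θ) / 3 with hδd
  have hδ : 0 < δ := by rw [hδd]; linarith
  obtain ⟨N, hN⟩ := exists_nat_gt (2 / δ ^ 2)
  have hN0 : (0 : ℝ) < N := lt_trans (by positivity) hN
  set a : ℝ := 1 / N with had
  have ha : 0 < a := by positivity
  have hNa : (N : ℝ) * a = 1 := by rw [had]; field_simp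
  set η := min (a ^ 2) (ε / (N + 1)) with hηd
  have hη : 0 < η := lt_min (by positivity) (by positivity)
  have hinc : 0 ≤ a * θ + 2 * a ^ 2 / δ := by positivity
  have key : ∀ k : ℕ, ∃ H : ImmN E M, (∀ p, ‖H.F p - ((k : ℝ) * a) • F p‖ ≤ (k + 1) * η) ∧
      ∀ p (v : E), ‖Cov.dfE (E := E) H.F p v‖ ≤
        (δ + k * (a * θ + 2 * a ^ 2 / δ)) * √(Cov.gE g p v v) := by
    intro k
    induction k with
    | zero =>
      obtain ⟨H, h1, h2⟩ := start g H0 hη hδ
      exact ⟨H, fun p => by simpa using h1 p, fun p v => by simpa using h2 p v⟩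
    | succ k ih =>
      obtain ⟨H, h1, h2⟩ := ih
      obtain ⟨H', h3, h4⟩ := step K b g hF hθ.le hFs ha hδ
        (le_add_of_nonneg_right (mul_nonneg (Nat.cast_nonneg k) hinc)) hη (min_le_left _ _) H h2
      refine ⟨H', fun p => ?_, fun p v => (h4 p v).trans (le_of_eq ?_)⟩
      · have e : H'.F p - (((k + 1 : ℕ) : ℝ) * a) • F p =
            (H'.F p - (H.F p + a • F p)) + (H.F p - ((k : ℝ) * a) • F p) := by
          push_cast
          rw [add_mul, one_mul, add_smul]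
          abel
        rw [e]
        refine (norm_add_le _ _).trans ((add_le_add (h3 p) (h1 p)).trans (le_of_eq ?_))
        push_cast
        ring
      · push_cast
        ring
  obtain ⟨H, h1, h2⟩ := key N
  refine ⟨H, fun p => ?_, fun p v hv => ?_⟩
  · have h3 := h1 p
    rw [hNa, one_smul] at h3
    refine h3.trans ?_
    have h4 : η ≤ ε / (N + 1) := min_le_right _ _
    rw [le_div_iff₀ (by positivity)] at h4
    linarith
  · have h4 : 0 < Cov.gE g p v v := g.pos p v hv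
    have h5 : δ + N * (a * θ + 2 * a ^ 2 / δ) < 1 := by
      have e : N * (a * θ + 2 * a ^ 2 / δ) = (N * a) * θ + (N * a) * (2 * a / δ) := by ring
      have h6 : 2 * a / δ < δ := by
        rw [div_lt_iff₀ hδ, had]
        rw [div_lt_iff₀ (by positivity)] at hN
        rw [mul_one_div, div_lt_iff₀ hN0]
        linarith
      rw [e, hNa]
      linarith
    have h7 : ‖Cov.dfE (E := E) H.F p v‖ < √(Cov.gE g p v v) :=
      (h2 p v).trans_lt (mul_lt_of_lt_one_left (Real.sqrt_pos.2 h4) h5)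
    have h8 := pow_lt_pow_left₀ h7 (norm_nonneg _) two_ne_zero
    rwa [Real.sq_sqrt h4.le] at h8

/-- smooth isometric immersions -/
def Isom (X : M → R4) : Prop :=
  ContMDiff 𝓘(ℝ, E) 𝓘(ℝ, R4) ∞ X ∧ ∀ (m : M) (v w : TangentSpace 𝓘(ℝ, E) m),
    ⟪mvfderiv 𝓘(ℝ, E) X m v, mvfderiv 𝓘(ℝ, E) X m w⟫ = g.inner m v w

theorem isom_vec {X : Fin 4 → M → ℝ} (hX : ∀ i, ContMDiff 𝓘(ℝ, E) 𝓘(ℝ) ∞ (X i))
    (h : ∀ (m : M) (v w : TangentSpace 𝓘(ℝ, E) m),
      ∑ i, mvfderiv 𝓘(ℝ, E) (X i) m v * mvfderiv 𝓘(ℝ, E) (X i) m w = g.inner m v w) :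
    Isom g (vec X) := by
  refine ⟨contMDiff_vec hX, fun m v w => ?_⟩
  rw [← h m v w]
  have h1 : ⟪Cov.dfE (E := E) (vec X) m v, Cov.dfE (E := E) (vec X) m w⟫ =
      ∑ i, mvfderiv 𝓘(ℝ, E) (X i) m v * mvfderiv 𝓘(ℝ, E) (X i) m w := by
    rw [inner_eq_dt4, dt4]
    exact Finset.sum_congr rfl fun i _ => by rw [dfE_vec hX m v i, dfE_vec hX m w i]
  exact h1

theorem Isom.norm {X : M → R4} (h : Isom g X) (p : M) (v : E) :
    ‖Cov.dfE (E := E) X p v‖ = √(Cov.gE g p v v) := by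
  have h1 : ⟪Cov.dfE (E := E) X p v, Cov.dfE (E := E) X p v⟫ = Cov.gE g p v v := h.2 p v v
  rw [← h1, ← norm_eq_sqrt_real_inner]

/-- 1-Lipschitz maps are uniform limits of smooth isometric immersions -/
theorem approx (hE : Module.finrank ℝ E = 2) {F : M → R4}
    (hF : ∀ x y, edist (F x) (F y) ≤ dR g x y) {ε : ℝ} (hε : 0 < ε) :
    ∃ X : M → R4, Isom g X ∧ ∀ m, ‖X m - F m‖ ≤ ε := by
  rcases isEmpty_or_nonempty M with he | he
  · exact ⟨fun _ => 0, ⟨contMDiff_const, fun m => (he.false m).elim⟩, fun m => (he.false m).elim⟩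
  obtain ⟨K⟩ := Cov.exists (E := E) (M := M)
  have b := Module.finBasisOfFinrankEq ℝ E hE
  obtain ⟨H0⟩ := exists_immN (E := E) (M := M) hE
  obtain ⟨G0, hG0, hG01, -⟩ := smooth g hF (r := 2) (by norm_num) hε
  obtain ⟨B, hB0, hB⟩ := exists_sup hG0.continuous
  set τ := min (1 / 2) (ε / 4 / (B + 2 * ε)) with hτ
  have hτ0 : 0 < τ := lt_min (by norm_num) (by positivity)
  have hτ1 : τ ≤ 1 / 2 := min_le_left _ _
  have hτ2 : τ * (B + 2 * ε) ≤ ε / 4 := (le_div_iff₀ (by positivity)).1 (min_le_right _ _)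
  obtain ⟨G, hG, hG1, hG2⟩ := smooth g hF (r := 1 + τ) (ε := ε / 4) (by linarith) (by positivity)
  obtain ⟨H, hH1, hH2⟩ := grow K b g H0 (F := fun p => (1 - τ) • G p) (sm_csmul _ hG)
    (θ := (1 - τ) * (1 + τ)) (mul_nonneg (by linarith) (by linarith)) (by nlinarith)
    (fun p v => by
      rw [dfE_const_smul _ ((hG p).mdifferentiableAt (by simp)) v, norm_smul,
        Real.norm_of_nonneg (by linarith), mul_assoc]
      exact mul_le_mul_of_nonneg_left (hG2 p v) (by linarith)) (ε := ε / 4) (by positivity)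
  obtain ⟨X, hX1, hX2, hX3, -⟩ := exists_large_strict K b g H hH2 (ρ := ε / 4) (by positivity) 0
  refine ⟨vec X, isom_vec g hX1 hX2, fun m => ?_⟩
  have h1 : ‖vec X m - H.F m‖ ≤ ε / 4 := by
    rw [EuclideanSpace.norm_eq]
    refine Real.sqrt_le_iff.2 ⟨by positivity, le_trans (le_of_eq ?_) (hX3 m)⟩
    refine Finset.sum_congr rfl fun i _ => ?_
    rw [Real.norm_eq_abs, sq_abs]
    rfl
  have h2 : ‖G m‖ ≤ B + 2 * ε := by
    have e : G m = G0 m - (G0 m - F m) + (G m - F m) := by abel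
    rw [e]
    refine (norm_add_le _ _).trans ((add_le_add (norm_sub_le _ _) (hG1 m)).trans ?_)
    linarith [hB m, hG01 m]
  have h3 : ‖τ • G m‖ ≤ ε / 4 := by
    rw [norm_smul, Real.norm_of_nonneg hτ0.le]
    exact (mul_le_mul_of_nonneg_left h2 hτ0.le).trans hτ2
  have e : vec X m - F m = (vec X m - H.F m) + (H.F m - (1 - τ) • G m) - τ • G m
      + (G m - F m) := by
    rw [sub_smul, one_smul]
    abel
  rw [e]
  refine (norm_add_le _ _).trans ((add_le_add (norm_sub_le _ _) (hG1 m)).trans ?_)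
  linarith [norm_add_le (vec X m - H.F m) (H.F m - (1 - τ) • G m), hH1 m]

/-- uniform limits of smooth isometric immersions are 1-Lipschitz -/
theorem lip_of_approx {F : M → R4}
    (h : ∀ ε : ℝ, 0 < ε → ∃ X : M → R4, Isom g X ∧ ∀ m, ‖X m - F m‖ ≤ ε) (x y : M) :
    edist (F x) (F y) ≤ dR g x y := by
  refine ENNReal.le_of_forall_pos_le_add fun ε hε _ => ?_
  obtain ⟨X, hX, h1⟩ := h (ε / 2) (by positivity)
  have h2 := lip_of_short g (hX.1.of_le (m := 1) (by simp)) (fun p v => (hX.norm g p v).le) x y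
  have h3 : ∀ m, edist (X m) (F m) ≤ ENNReal.ofReal (ε / 2) := fun m => by
    rw [edist_dist, dist_eq_norm]
    exact ENNReal.ofReal_le_ofReal (h1 m)
  have h4 : ENNReal.ofReal (ε / 2) + ENNReal.ofReal (ε / 2) = ε := by
    rw [← ENNReal.ofReal_add (by positivity) (by positivity), add_halves,
      ENNReal.ofReal_coe_nnreal]
  calc edist (F x) (F y) ≤ edist (F x) (X x) + edist (X x) (X y) + edist (X y) (F y) :=
        edist_triangle4 _ _ _ _
    _ ≤ ENNReal.ofReal (ε / 2) + dR g x y + ENNReal.ofReal (ε / 2) := by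
        rw [edist_comm (F x)]
        exact add_le_add (add_le_add (h3 x) h2) (h3 y)
    _ = dR g x y + ε := by rw [← h4]; ring

end Vale.Agent.N205

end
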