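import Vale.Agent.P205.H308.Strict
import Vale.Agent.P205.H599.Op
import Mathlib.Geometry.Manifold.Riemannian.Basic

/-!
P205: a Riemannian metric in a chart; bounds for differentials; short maps are 1-Lipschitz.
-/

noncomputable section

set_option linter.unusedSectionVars false
set_option linter.style.haveILetI false

open scoped ContDiff Manifold Topology ENNReal
open Set Filter Manifold

namespace Vale.Agent.N205

open Vale.Agent.P205.F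

universe u

/-- a positive definite form is coercive -/
theorem coercive {E : Type} [NormedAddCommGroup E] [NormedSpace ℝ E] [FiniteDimensional ℝ E]
    (B : E →L[ℝ] E →L[ℝ] ℝ) (hp : ∀ v, v ≠ 0 → 0 < B v v) :
    ∃ m : ℝ, 0 < m ∧ ∀ v : E, m * ‖v‖ ^ 2 ≤ B v v := by
  rcases (Metric.sphere (0 : E) 1).eq_empty_or_nonempty with h | h
  · refine ⟨1, one_pos, fun v => ?_⟩
    have hv : v = 0 := by
      by_contra hv
      have : ‖v‖⁻¹ • v ∈ Metric.sphere (0 : E) 1 := by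
        rw [mem_sphere_zero_iff_norm, norm_smul, norm_inv, norm_norm,
          inv_mul_cancel₀ (norm_ne_zero_iff.2 hv)]
      rw [h] at this
      exact this
    rw [hv]
    simp
  · have hc : Continuous fun v : E => B v v := by fun_prop
    obtain ⟨v0, hv0, hmin⟩ := (isCompact_sphere (0 : E) 1).exists_isMinOn h hc.continuousOn
    have hv0' : v0 ≠ 0 := by
      rintro rfl
      rw [mem_sphere_zero_iff_norm, norm_zero] at hv0
      exact zero_ne_one hv0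
    refine ⟨B v0 v0, hp v0 hv0', fun v => ?_⟩
    by_cases hv : v = 0
    · rw [hv]
      simp
    · have hn : ‖v‖ ≠ 0 := norm_ne_zero_iff.2 hv
      have h1 : ‖v‖⁻¹ • v ∈ Metric.sphere (0 : E) 1 := by
        rw [mem_sphere_zero_iff_norm, norm_smul, norm_inv, norm_norm, inv_mul_cancel₀ hn]
      have h2 : B v0 v0 ≤ B (‖v‖⁻¹ • v) (‖v‖⁻¹ • v) := hmin h1
      rw [map_smul, map_smul, smul_apply, smul_eq_mul, smul_eq_mul,
        ← mul_assoc, ← sq, inv_pow] at h2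
      have h3 : 0 < ‖v‖ ^ 2 := by positivity
      rwa [← div_eq_inv_mul, le_div_iff₀ h3] at h2

theorem ev_norm {X G : Type*} [TopologicalSpace X] [SeminormedAddCommGroup G] {f : X → G} {x0 : X}
    (hc : ContinuousAt f x0) {η : ℝ} (hη : 0 < η) : ∀ᶠ x in 𝓝 x0, ‖f x - f x0‖ < η := by
  filter_upwards [hc.eventually (Metric.ball_mem_nhds _ hη)] with x hx
  rwa [← dist_eq_norm]

/-- smooth Riemannian metrics -/
abbrev Met (E : Type) [NormedAddCommGroup E] [NormedSpace ℝ E]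
    (M : Type u) [TopologicalSpace M] [ChartedSpace E M] [IsManifold 𝓘(ℝ, E) ∞ M] :=
  Bundle.ContMDiffRiemannianMetric 𝓘(ℝ, E) ∞ E (fun x : M => TangentSpace 𝓘(ℝ, E) x)

variable {E : Type} [NormedAddCommGroup E] [NormedSpace ℝ E] [FiniteDimensional ℝ E]
  {M : Type u} [TopologicalSpace M] [ChartedSpace E M] [IsManifold 𝓘(ℝ, E) ∞ M]

/-- the differential of the chart -/
def Tc (x0 x : M) : E →L[ℝ] E := mfderiv 𝓘(ℝ, E) 𝓘(ℝ, E) (extChartAt 𝓘(ℝ, E) x0) x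

/-- a form in the chart -/
def Qc (x0 x : M) (L : TangentSpace 𝓘(ℝ, E) x →L[ℝ] TangentSpace 𝓘(ℝ, E) x →L[ℝ] ℝ) :
    E →L[ℝ] E →L[ℝ] ℝ :=
  (trivializationAt (E →L[ℝ] E →L[ℝ] ℝ)
    (fun x : M => TangentSpace 𝓘(ℝ, E) x →L[ℝ] TangentSpace 𝓘(ℝ, E) x →L[ℝ] ℝ) x0 ⟨x, L⟩).2

theorem Tc_eq {x0 x : M} (hx : x ∈ (chartAt E x0).source) :
    Tc (E := E) x0 x =
      (trivializationAt E (TangentSpace 𝓘(ℝ, E) : M → Type _) x0).continuousLinearMapAt ℝ x :=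
  (TangentBundle.continuousLinearMapAt_trivializationAt hx).symm

theorem Qc_Tc {x0 x : M} (hx : x ∈ (chartAt E x0).source)
    (L : TangentSpace 𝓘(ℝ, E) x →L[ℝ] TangentSpace 𝓘(ℝ, E) x →L[ℝ] ℝ) (v w : E) :
    Qc x0 x L (Tc x0 x v) (Tc x0 x w) = L v w := by
  have h1 : x ∈ (trivializationAt E (TangentSpace 𝓘(ℝ, E) : M → Type _) x0).baseSet := hx
  have h4 := inCoordinates_apply_eq₂ (𝕜 := ℝ) (F₁ := E)
    (E₁ := fun x : M => TangentSpace 𝓘(ℝ, E) x)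
    (F₂ := E) (E₂ := fun x : M => TangentSpace 𝓘(ℝ, E) x) (F₃ := ℝ) (E₃ := fun _ : M => ℝ)
    (ϕ := L) (v := Tc x0 x v) (w := Tc x0 x w) h1 h1 (mem_univ x)
  have h5 : ∀ z : ℝ, (trivializationAt ℝ (fun _ : M => ℝ) x0).linearMapAt ℝ x z = z := by
    intro z
    simp
  rw [h5] at h4
  refine Eq.trans h4 ?_
  have h6 : ∀ u : E, (trivializationAt E (TangentSpace 𝓘(ℝ, E) : M → Type _) x0).symm x
      (Tc x0 x u) = u := by
    intro u
    have h9 := Bundle.Trivialization.symmL_apply (R := ℝ)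
      (trivializationAt E (TangentSpace 𝓘(ℝ, E) : M → Type _) x0) h1 (Tc x0 x u)
    rw [← h9, Tc_eq hx]
    exact Bundle.Trivialization.symmL_continuousLinearMapAt _ h1 u
  exact congrArg₂ (fun a b => L a b) (h6 v) (h6 w)

theorem Tc_surj {x0 x : M} (hx : x ∈ (chartAt E x0).source) (w : E) : ∃ v : E, Tc x0 x v = w := by
  have h1 : x ∈ (trivializationAt E (TangentSpace 𝓘(ℝ, E) : M → Type _) x0).baseSet := hx
  refine ⟨(trivializationAt E (TangentSpace 𝓘(ℝ, E) : M → Type _) x0).symmL ℝ x w, ?_⟩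
  rw [Tc_eq hx]
  exact Bundle.Trivialization.continuousLinearMapAt_symmL _ h1 w

theorem Tc_inj {x0 x : M} (hx : x ∈ (chartAt E x0).source) {v : E} (h : Tc x0 x v = 0) :
    v = 0 := by
  have h1 : x ∈ (trivializationAt E (TangentSpace 𝓘(ℝ, E) : M → Type _) x0).baseSet := hx
  have h2 := Bundle.Trivialization.symmL_continuousLinearMapAt (R := ℝ) _ h1 v
  rw [← Tc_eq hx] at h2
  have h3 : (trivializationAt E (TangentSpace 𝓘(ℝ, E) : M → Type _) x0).symmL ℝ x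
      (Tc x0 x v) = v := h2
  rw [h, map_zero] at h3
  exact h3.symm

variable (g : Met E M)

theorem gE_nonneg (x : M) (v : E) : 0 ≤ Cov.gE g x v v := by
  by_cases hv : v = 0
  · rw [hv, map_zero]
  · exact (g.pos x v hv).le

/-- **the metric near a point is almost constant in the chart** -/
theorem loc (x0 : M) : ∃ (Q : E →L[ℝ] E →L[ℝ] ℝ) (m : ℝ), 0 < m ∧ (∀ w, m * ‖w‖ ^ 2 ≤ Q w w) ∧
    ∀ r : ℝ, 1 < r → ∀ᶠ x in 𝓝 x0, x ∈ (chartAt E x0).source ∧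
      ∀ v : E, Cov.gE g x v v ≤ r * Q (Tc x0 x v) (Tc x0 x v) ∧
        Q (Tc x0 x v) (Tc x0 x v) ≤ r * Cov.gE g x v v := by
  have hx0 := mem_chart_source E x0
  obtain ⟨m, hm, hQ⟩ := coercive (Qc x0 x0 (g.inner x0)) (fun w hw => by
    obtain ⟨v, rfl⟩ := Tc_surj hx0 w
    rw [Qc_Tc hx0]
    refine g.pos x0 v ?_
    rintro rfl
    exact hw (map_zero _))
  refine ⟨Qc x0 x0 (g.inner x0), m, hm, hQ, fun r hr => ?_⟩
  have hc : ContinuousAt (fun x => Qc x0 x (g.inner x)) x0 :=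
    ((Bundle.contMDiffAt_section x0).1 (g.contMDiff x0)).continuousAt
  have hη : 0 < (1 - 1 / r) * m := by
    have : 1 / r < 1 := by rw [div_lt_one (by linarith)]; exact hr
    exact mul_pos (by linarith) hm
  have hc3 : ∀ᶠ x in 𝓝 x0, ‖Qc x0 x (g.inner x) - Qc x0 x0 (g.inner x0)‖ < (1 - 1 / r) * m :=
    ev_norm (G := E →L[ℝ] E →L[ℝ] ℝ) hc hη
  filter_upwards [hc3, (chartAt E x0).open_source.mem_nhds hx0] with x hx hxs
  refine ⟨hxs, fun v => ?_⟩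
  have h1 : Qc x0 x (g.inner x) (Tc x0 x v) (Tc x0 x v) = Cov.gE g x v v := Qc_Tc hxs _ v v
  set w := Tc x0 x v
  set A := Qc x0 x (g.inner x)
  set B := Qc x0 x0 (g.inner x0)
  have h2 : ‖A - B‖ ≤ (1 - 1 / r) * m := le_of_lt hx
  have h3 : |A w w - B w w| ≤ (1 - 1 / r) * B w w := by
    have h4 : ‖(A - B) w w‖ ≤ ‖A - B‖ * ‖w‖ * ‖w‖ := (A - B).le_opNorm₂ w w
    have h5 : (A - B) w w = A w w - B w w := rfl
    rw [h5, Real.norm_eq_abs] at h4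
    have h6 : ‖A - B‖ * ‖w‖ * ‖w‖ ≤ (1 - 1 / r) * m * ‖w‖ * ‖w‖ := by gcongr
    have h7 : 0 ≤ 1 - 1 / r := by
      have : 1 / r < 1 := by rw [div_lt_one (by linarith)]; exact hr
      linarith
    have h8 := mul_le_mul_of_nonneg_left (hQ w) h7
    nlinarith
  rw [← h1]
  have hB : 0 ≤ B w w := le_trans (by positivity) (hQ w)
  have h9 := abs_le.1 h3
  have hr0 : 0 < r := by linarith
  have h10 : 2 - 1 / r ≤ r := by
    have : 0 ≤ (r - 1) ^ 2 / r := by positivity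
    have e : (r - 1) ^ 2 / r = r - (2 - 1 / r) := by field_simp; ring
    linarith
  constructor
  · nlinarith [h9.2]
  · have h11 : 1 / r * B w w ≤ A w w := by linarith [h9.1]
    have h12 := mul_le_mul_of_nonneg_left h11 hr0.le
    have e : r * (1 / r * B w w) = B w w := by field_simp
    linarith

section diff

variable {F : Type} [NormedAddCommGroup F] [NormedSpace ℝ F]

/-- chain rule through the chart -/
theorem dfE_chart {x0 x : M} (hx : x ∈ (chartAt E x0).source) {h : E → F} {u : M → F}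
    (hh : DifferentiableAt ℝ h (extChartAt 𝓘(ℝ, E) x0 x))
    (hu : u =ᶠ[𝓝 x] fun y => h (extChartAt 𝓘(ℝ, E) x0 y)) (v : E) :
    Cov.dfE (E := E) u x v = fderiv ℝ h (extChartAt 𝓘(ℝ, E) x0 x) (Tc x0 x v) := by
  have h1 : MDifferentiableAt 𝓘(ℝ, E) 𝓘(ℝ, E) (extChartAt 𝓘(ℝ, E) x0) x :=
    mdifferentiableAt_extChartAt hx
  have h2 := mfderiv_comp x hh.mdifferentiableAt h1
  rw [mfderiv_eq_fderiv] at h2
  have h3 : mfderiv 𝓘(ℝ, E) 𝓘(ℝ, F) u x =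
      mfderiv 𝓘(ℝ, E) 𝓘(ℝ, F) (h ∘ extChartAt 𝓘(ℝ, E) x0) x := hu.mfderiv_eq
  have h4 : Cov.dfE (E := E) u x =
      (fderiv ℝ h (extChartAt 𝓘(ℝ, E) x0 x)).comp (Tc x0 x) := h3.trans h2
  rw [h4]
  rfl

/-- local bound of the differential -/
theorem bound_loc {u : M → F} {x0 : M} (hu : ContMDiffAt 𝓘(ℝ, E) 𝓘(ℝ, F) 1 u x0) :
    ∃ C : ℝ, 0 ≤ C ∧ ∀ᶠ x in 𝓝 x0, ∀ v : E, ‖Cov.dfE (E := E) u x v‖ ^ 2 ≤ C * Cov.gE g x v v := by
  obtain ⟨Q, m, hm, hQ, h⟩ := loc g x0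
  set φ := extChartAt 𝓘(ℝ, E) x0 with hφ
  have h1 : ContDiffAt ℝ 1 (u ∘ φ.symm) (φ x0) := by
    have h2 := (contMDiffAt_iff.1 hu).2
    simp only [mfld_simps, contDiffWithinAt_univ, chartAt_self_eq] at h2
    simpa [hφ, Function.comp_def] using h2
  have h3 : ContinuousAt (fderiv ℝ (u ∘ φ.symm)) (φ x0) :=
    (h1.fderiv_right (m := 0) (by simp)).continuousAt
  set C0 := ‖fderiv ℝ (u ∘ φ.symm) (φ x0)‖ + 1 with hC0
  have h4 : ∀ᶠ y in 𝓝 (φ x0), ‖fderiv ℝ (u ∘ φ.symm) y‖ < C0 :=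
    h3.norm.eventually (gt_mem_nhds (by rw [hC0]; linarith))
  have h5 : ∀ᶠ y in 𝓝 (φ x0), DifferentiableAt ℝ (u ∘ φ.symm) y :=
    (h1.eventually (by simp)).mono fun y hy => hy.differentiableAt (by simp)
  have hc : ContinuousAt φ x0 := continuousAt_extChartAt x0
  refine ⟨C0 ^ 2 / m * 2, by positivity, ?_⟩
  filter_upwards [h 2 (by norm_num), hc.eventually h4, hc.eventually h5] with x hx h6 h7 v
  have h8 : u =ᶠ[𝓝 x] fun y => (u ∘ φ.symm) (φ y) := by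
    filter_upwards [(chartAt E x0).open_source.mem_nhds hx.1] with y hy
    have : y ∈ φ.source := by rw [hφ, extChartAt_source]; exact hy
    simp only [Function.comp_apply, φ.left_inv this]
  rw [dfE_chart hx.1 h7 h8]
  have h9 : ‖fderiv ℝ (u ∘ φ.symm) (φ x) (Tc x0 x v)‖ ≤ C0 * ‖Tc x0 x v‖ :=
    (ContinuousLinearMap.le_opNorm _ _).trans (by gcongr)
  have h10 := hQ (Tc x0 x v)
  have h11 := (hx.2 v).2
  calc _ ≤ (C0 * ‖Tc x0 x v‖) ^ 2 := pow_le_pow_left₀ (norm_nonneg _) h9 2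
    _ = C0 ^ 2 / m * (m * ‖Tc x0 x v‖ ^ 2) := by field_simp
    _ ≤ C0 ^ 2 / m * (2 * Cov.gE g x v v) := mul_le_mul_of_nonneg_left (h10.trans h11) (by positivity)
    _ = _ := by ring

/-- **global bound of the differential** -/
theorem bound [CompactSpace M] {u : M → F} (hu : ContMDiff 𝓘(ℝ, E) 𝓘(ℝ, F) 1 u) :
    ∃ C : ℝ, 0 < C ∧ ∀ x (v : E), ‖Cov.dfE (E := E) u x v‖ ≤ C * √(Cov.gE g x v v) := by
  choose C hC0 hC using fun x => bound_loc g (hu x)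
  obtain ⟨t, -, ht⟩ := isCompact_univ.elim_nhds_subcover
    (fun x0 => {x | ∀ v : E, ‖Cov.dfE (E := E) u x v‖ ^ 2 ≤ C x0 * Cov.gE g x v v})
    (fun x _ => hC x)
  have hs : 0 ≤ ∑ x ∈ t, C x := Finset.sum_nonneg fun x _ => hC0 x
  refine ⟨√(∑ x ∈ t, C x) + 1, by positivity, fun x v => ?_⟩
  obtain ⟨x0, hx0, hx⟩ := mem_iUnion₂.1 (ht (mem_univ x))
  have h1 : C x0 ≤ ∑ x ∈ t, C x := Finset.single_le_sum (fun x _ => hC0 x) hx0
  have h2 := gE_nonneg g x v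
  have h3 : ‖Cov.dfE (E := E) u x v‖ ≤ √((∑ x ∈ t, C x) * Cov.gE g x v v) :=
    Real.le_sqrt_of_sq_le ((hx v).trans (by gcongr))
  rw [Real.sqrt_mul hs] at h3
  have h4 := Real.sqrt_nonneg (Cov.gE g x v v)
  nlinarith

end diff

open Bundle

/-- the Riemannian distance of `g` -/
def dR (x y : M) : ℝ≥0∞ :=
  letI : RiemannianBundle (fun x : M => TangentSpace 𝓘(ℝ, E) x) := ⟨g.toRiemannianMetric⟩
  riemannianEDist 𝓘(ℝ, E) x y

theorem enorm_eq (x : M) (v : TangentSpace 𝓘(ℝ, E) x) :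
    letI : RiemannianBundle (fun x : M => TangentSpace 𝓘(ℝ, E) x) := ⟨g.toRiemannianMetric⟩
    ‖v‖ₑ = ENNReal.ofReal √(Cov.gE g x v v) := by
  letI : RiemannianBundle (fun x : M => TangentSpace 𝓘(ℝ, E) x) := ⟨g.toRiemannianMetric⟩
  rw [← ofReal_norm, norm_eq_sqrt_real_inner]
  rfl

/-- **short maps are 1-Lipschitz** -/
theorem lip_of_short {F : Type} [NormedAddCommGroup F] [NormedSpace ℝ F] [CompleteSpace F]
    {u : M → F} (hu : ContMDiff 𝓘(ℝ, E) 𝓘(ℝ, F) 1 u)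
    (hs : ∀ x (v : E), ‖Cov.dfE (E := E) u x v‖ ≤ √(Cov.gE g x v v)) (x y : M) :
    edist (u x) (u y) ≤ dR g x y := by
  letI : RiemannianBundle (fun x : M => TangentSpace 𝓘(ℝ, E) x) := ⟨g.toRiemannianMetric⟩
  refine le_of_forall_gt fun r hr => ?_
  obtain ⟨γ, h0, h1, hγ, hl⟩ := exists_lt_of_riemannianEDist_lt (I := 𝓘(ℝ, E)) hr
  refine lt_of_le_of_lt ?_ hl
  have D : ContDiffOn ℝ 1 (u ∘ γ) (Icc 0 1) :=
    contMDiffOn_iff_contDiffOn.mp (hu.comp_contMDiffOn hγ)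
  have h2 := enorm_sub_le_lintegral_derivWithin_Icc_of_contDiffOn_Icc D zero_le_one
  rw [edist_comm, edist_eq_enorm_sub, ← h0, ← h1]
  refine le_trans h2 ?_
  rw [pathELength_eq_lintegral_mfderivWithin_Icc]
  refine MeasureTheory.setLIntegral_mono' measurableSet_Icc (fun t ht => ?_)
  have h3 : mfderivWithin 𝓘(ℝ, ℝ) 𝓘(ℝ, F) (u ∘ γ) (Icc 0 1) t =
      (mfderiv 𝓘(ℝ, E) 𝓘(ℝ, F) u (γ t)).comp (mfderivWithin 𝓘(ℝ, ℝ) 𝓘(ℝ, E) γ (Icc 0 1) t) := by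
    refine mfderiv_comp_mfderivWithin t ((hu _).mdifferentiableAt one_ne_zero)
      (hγ.mdifferentiableOn one_ne_zero t ht) ?_
    rw [uniqueMDiffWithinAt_iff_uniqueDiffWithinAt]
    exact uniqueDiffOn_Icc zero_lt_one t ht
  rw [mfderivWithin_eq_fderivWithin] at h3
  have h4 : derivWithin (u ∘ γ) (Icc 0 1) t = Cov.dfE (E := E) u (γ t)
      (mfderivWithin 𝓘(ℝ, ℝ) 𝓘(ℝ, E) γ (Icc 0 1) t (1 : ℝ)) :=
    congrArg (fun L : ℝ →L[ℝ] F => L 1) h3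
  rw [h4, enorm_eq, ← ofReal_norm]
  exact ENNReal.ofReal_le_ofReal (hs _ _)

/-- the distance in a chart -/
theorem dR_le_chart {x0 : M} {Q : E →L[ℝ] E →L[ℝ] ℝ} {r : ℝ} {B : Set E} (hB : Convex ℝ B)
    (hBt : B ⊆ (extChartAt 𝓘(ℝ, E) x0).target)
    (h : ∀ y ∈ B, ∀ v : E, Cov.gE g ((extChartAt 𝓘(ℝ, E) x0).symm y) v v ≤
      r * Q (Tc x0 ((extChartAt 𝓘(ℝ, E) x0).symm y) v) (Tc x0 ((extChartAt 𝓘(ℝ, E) x0).symm y) v))
    {y z : E} (hy : y ∈ B) (hz : z ∈ B) :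
    dR g ((extChartAt 𝓘(ℝ, E) x0).symm y) ((extChartAt 𝓘(ℝ, E) x0).symm z) ≤
      ENNReal.ofReal √(r * Q (z - y) (z - y)) := by
  letI : RiemannianBundle (fun x : M => TangentSpace 𝓘(ℝ, E) x) := ⟨g.toRiemannianMetric⟩
  set φ := extChartAt 𝓘(ℝ, E) x0 with hφ
  let η := ContinuousAffineMap.lineMap (R := ℝ) y z
  set γ := φ.symm ∘ η with hγ
  have hη : ∀ t ∈ Icc (0 : ℝ) 1, η t ∈ B := fun t ht => by
    have h1 : η t ∈ segment ℝ y z := by
      rw [segment_eq_image_lineMap]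
      exact ⟨t, ht, rfl⟩
    exact hB.segment_subset hy hz h1
  have η_smooth : ContMDiff 𝓘(ℝ, ℝ) 𝓘(ℝ, E) 1 η := by
    rw [contMDiff_iff_contDiff]
    exact ContinuousAffineMap.contDiff _
  have hγs : ContMDiffOn 𝓘(ℝ, ℝ) 𝓘(ℝ, E) 1 γ (Icc 0 1) :=
    (contMDiffOn_extChartAt_symm x0).comp η_smooth.contMDiffOn (fun t ht => hBt (hη t ht))
  have h1 : riemannianEDist 𝓘(ℝ, E) (φ.symm y) (φ.symm z) ≤ pathELength 𝓘(ℝ, E) γ 0 1 := by
    apply riemannianEDist_le_pathELength hγs _ _ zero_le_one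
    · simp [hγ, η, ContinuousAffineMap.coe_lineMap_eq]
    · simp [hγ, η, ContinuousAffineMap.coe_lineMap_eq]
  refine le_trans h1 ?_
  rw [pathELength_eq_lintegral_mfderivWithin_Icc]
  have h2 : ENNReal.ofReal √(r * Q (z - y) (z - y)) =
      ∫⁻ _t in Icc (0 : ℝ) 1, ENNReal.ofReal √(r * Q (z - y) (z - y)) := by simp
  rw [h2]
  refine MeasureTheory.setLIntegral_mono' measurableSet_Icc (fun t ht => ?_)
  rw [enorm_eq]
  refine ENNReal.ofReal_le_ofReal (Real.sqrt_le_sqrt ?_)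
  have hs : γ t ∈ (chartAt E x0).source := by
    have := φ.map_target (hBt (hη t ht))
    rwa [hφ, extChartAt_source] at this
  have hu : UniqueMDiffWithinAt 𝓘(ℝ, ℝ) (Icc (0 : ℝ) 1) t := by
    rw [uniqueMDiffWithinAt_iff_uniqueDiffWithinAt]
    exact uniqueDiffOn_Icc zero_lt_one t ht
  have h3 : mfderivWithin 𝓘(ℝ, ℝ) 𝓘(ℝ, E) (φ ∘ γ) (Icc 0 1) t =
      (mfderiv 𝓘(ℝ, E) 𝓘(ℝ, E) φ (γ t)).comp (mfderivWithin 𝓘(ℝ, ℝ) 𝓘(ℝ, E) γ (Icc 0 1) t) :=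
    mfderiv_comp_mfderivWithin t (mdifferentiableAt_extChartAt hs)
      (hγs.mdifferentiableOn one_ne_zero t ht) hu
  have h4 : mfderivWithin 𝓘(ℝ, ℝ) 𝓘(ℝ, E) (φ ∘ γ) (Icc 0 1) t =
      mfderivWithin 𝓘(ℝ, ℝ) 𝓘(ℝ, E) η (Icc 0 1) t := by
    refine mfderivWithin_congr (fun s hs => ?_) ?_
    · exact φ.right_inv (hBt (hη s hs))
    · exact φ.right_inv (hBt (hη t ht))
  have h5 : fderivWithin ℝ η (Icc 0 1) t 1 = z - y := by
    rw [fderivWithin_eq_fderiv (uniqueDiffOn_Icc zero_lt_one _ ht)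
      (ContinuousAffineMap.differentiableAt _)]
    simp [η]
  rw [h4, mfderivWithin_eq_fderivWithin] at h3
  have h6 : Tc (E := E) x0 (γ t) (mfderivWithin 𝓘(ℝ, ℝ) 𝓘(ℝ, E) γ (Icc 0 1) t (1 : ℝ)) = z - y :=
    (congrArg (fun L : ℝ →L[ℝ] E => L 1) h3).symm.trans h5
  have h7 := h (η t) (hη t ht) (mfderivWithin 𝓘(ℝ, ℝ) 𝓘(ℝ, E) γ (Icc 0 1) t (1 : ℝ))
  have h8 : φ.symm (η t) = γ t := rfl
  rw [h8, h6] at h7
  exact h7

end Vale.Agent.N205

end
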