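import Vale.Agent.N205.Grow
import Mathlib.Geometry.Manifold.Instances.Sphere

/-!
P205: short maps on compact planar sets are uniform limits of smooth isometric immersions.
-/

noncomputable section

set_option linter.unusedSectionVars false

open scoped ContDiff Manifold Topology RealInnerProductSpace ENNReal NNReal
open Set Filter

namespace Vale.Agent.N205

open Vale.Agent.P205.F Vale.Agent.P205.H599

universe u

variable {E : Type} [NormedAddCommGroup E] [NormedSpace ℝ E] [FiniteDimensional ℝ E]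

/-- after scaling, shortness on a compact set spreads to a neighbourhood -/
theorem spread {U K : Set E} (hU : IsOpen U) (hK : IsCompact K) (hKU : K ⊆ U)
    {G : E → E →L[ℝ] E →L[ℝ] ℝ} (hG : ContDiffOn ℝ ∞ G U)
    (hp : ∀ y ∈ U, ∀ v, v ≠ 0 → 0 < G y v v) {F : E → R4} (hF : ContDiffOn ℝ 1 F U)
    (hs : ∀ y ∈ K, ∀ v, ‖fderiv ℝ F y v‖ ^ 2 ≤ G y v v) {l : ℝ} (hl : l ^ 2 < 1) :
    ∃ W : Set E, IsOpen W ∧ K ⊆ W ∧ W ⊆ U ∧
      ∀ y ∈ W, ∀ v, l ^ 2 * ‖fderiv ℝ F y v‖ ^ 2 ≤ G y v v := by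
  have h1 : ContinuousOn (fun z : E × E => G z.1) (U ×ˢ univ) :=
    hG.continuousOn.comp continuousOn_fst fun z hz => hz.1
  have h2 : ContinuousOn (fun z : E × E => fderiv ℝ F z.1) (U ×ˢ univ) :=
    (hF.continuousOn_fderiv_of_isOpen hU le_rfl).comp continuousOn_fst fun z hz => hz.1
  have h3 : ContinuousOn (fun z : E × E => G z.1 z.2 z.2 - l ^ 2 * ‖fderiv ℝ F z.1 z.2‖ ^ 2)
      (U ×ˢ univ) :=
    ((h1.clm_apply continuousOn_snd).clm_apply continuousOn_snd).sub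
      (continuousOn_const.mul ((h2.clm_apply continuousOn_snd).norm.pow 2))
  obtain ⟨u, s, hu, -, hKu, hSs, hus⟩ := generalized_tube_lemma hK (isCompact_sphere (0 : E) 1)
    (h3.isOpen_inter_preimage (hU.prod isOpen_univ) (isOpen_Ioi (a := (0 : ℝ))))
    (fun z hz => ⟨⟨hKU hz.1, mem_univ _⟩, by
      have h4 : z.2 ≠ 0 := by
        intro h0
        have := hz.2
        rw [h0, mem_sphere_zero_iff_norm, norm_zero] at this
        exact zero_ne_one this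
      have h5 := hp z.1 (hKU hz.1) z.2 h4
      have h6 := mul_le_mul_of_nonneg_left (hs z.1 hz.1 z.2) (sq_nonneg l)
      show 0 < G z.1 z.2 z.2 - l ^ 2 * ‖fderiv ℝ F z.1 z.2‖ ^ 2
      nlinarith⟩)
  refine ⟨u ∩ U, hu.inter hU, subset_inter hKu hKU, inter_subset_right, fun y hy v => ?_⟩
  by_cases hv : v = 0
  · simp [hv]
  have hn : ‖v‖ ≠ 0 := norm_ne_zero_iff.2 hv
  have h4 : ‖v‖⁻¹ • v ∈ Metric.sphere (0 : E) 1 := by
    rw [mem_sphere_zero_iff_norm, norm_smul, norm_inv, norm_norm, inv_mul_cancel₀ hn]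
  have h5 : 0 < G y (‖v‖⁻¹ • v) (‖v‖⁻¹ • v) - l ^ 2 * ‖fderiv ℝ F y (‖v‖⁻¹ • v)‖ ^ 2 :=
    (hus (mk_mem_prod hy.1 (hSs h4))).2
  simp only [map_smul, smul_apply, smul_eq_mul, norm_smul, norm_inv, norm_norm] at h5
  have h6 : 0 < ‖v‖⁻¹ ^ 2 * (G y v v - l ^ 2 * ‖fderiv ℝ F y v‖ ^ 2) := by
    calc 0 < _ := h5
      _ = _ := by ring
  have h7 := (pos_iff_pos_of_mul_pos h6).1 (by positivity)
  linarith

variable {M : Type u} [TopologicalSpace M] [ChartedSpace E M] [IsManifold 𝓘(ℝ, E) ∞ M]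
  [CompactSpace M] [T2Space M]

/-- a field of forms given in a chart -/
theorem exists_form (x0 : M) {W : Set E} (hW : IsOpen W) {G : E → E →L[ℝ] E →L[ℝ] ℝ}
    (hG : ContDiffOn ℝ ∞ G W) :
    ∃ s : ∀ x : M, TangentSpace 𝓘(ℝ, E) x →L[ℝ] TangentSpace 𝓘(ℝ, E) x →L[ℝ] ℝ,
      ContMDiffOn 𝓘(ℝ, E) (𝓘(ℝ, E).prod 𝓘(ℝ, E →L[ℝ] E →L[ℝ] ℝ)) ∞
        (fun x => Bundle.TotalSpace.mk' (E →L[ℝ] E →L[ℝ] ℝ)
          (E := fun x : M => TangentSpace 𝓘(ℝ, E) x →L[ℝ] TangentSpace 𝓘(ℝ, E) x →L[ℝ] ℝ)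
          x (s x)) ((extChartAt 𝓘(ℝ, E) x0).source ∩ extChartAt 𝓘(ℝ, E) x0 ⁻¹' W) ∧
      ∀ x ∈ (chartAt E x0).source, ∀ v w : E,
        s x v w = G (extChartAt 𝓘(ℝ, E) x0 x) (Tc x0 x v) (Tc x0 x w) := by
  have h1 : ∀ x : M, IsTopologicalAddGroup (TangentSpace 𝓘(ℝ, E) x →L[ℝ] ℝ) := fun x => i1 x
  have h2 : ∀ x : M, ContinuousAdd (TangentSpace 𝓘(ℝ, E) x →L[ℝ] ℝ) := fun x => i2 x
  have h3 : ∀ x : M, ContinuousSMul ℝ (TangentSpace 𝓘(ℝ, E) x →L[ℝ] ℝ) := fun x => i3 x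
  let e := trivializationAt (E →L[ℝ] E →L[ℝ] ℝ)
    (fun x : M => TangentSpace 𝓘(ℝ, E) x →L[ℝ] TangentSpace 𝓘(ℝ, E) x →L[ℝ] ℝ) x0
  have hb : ∀ x ∈ (chartAt E x0).source, x ∈ e.baseSet := fun x hx => ⟨hx, hx, mem_univ x⟩
  have hs : ∀ x ∈ (extChartAt 𝓘(ℝ, E) x0).source, x ∈ (chartAt E x0).source := fun x hx => by
    rwa [extChartAt_source] at hx
  refine ⟨fun x => e.symm x (G (extChartAt 𝓘(ℝ, E) x0 x)), ?_, fun x hx v w => ?_⟩
  · refine (e.contMDiffOn_section_iff (isOpen_extChartAt_preimage' x0 hW)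
      (fun x hx => hb x (hs x hx.1))).2 ?_
    refine (hG.contMDiffOn.comp ((contMDiffOn_extChartAt (n := ∞) (x := x0)).mono
      fun x hx => hs x hx.1) fun x hx => hx.2).congr fun y hy => ?_
    rw [e.apply_mk_symm (hb y (hs y hy.1))]
    rfl
  · rw [← Qc_Tc hx]
    have h4 : Qc x0 x (e.symm x (G (extChartAt 𝓘(ℝ, E) x0 x))) =
        G (extChartAt 𝓘(ℝ, E) x0 x) := by
      show (e ⟨x, e.symm x (G (extChartAt 𝓘(ℝ, E) x0 x))⟩).2 = _
      rw [e.apply_mk_symm (hb x hx)]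
    rw [h4]

/-- a metric which extends a given one and makes a given map short -/
theorem extend_short {O L : Set M} (hO : IsOpen O) (hL : IsClosed L) (hLO : L ⊆ O)
    (s : ∀ x : M, TangentSpace 𝓘(ℝ, E) x →L[ℝ] TangentSpace 𝓘(ℝ, E) x →L[ℝ] ℝ)
    (hs : ∀ x ∈ O, ∀ v w, s x v w = s x w v) (hp : ∀ x ∈ O, ∀ v, v ≠ 0 → 0 < s x v v)
    (hg : ContMDiffOn 𝓘(ℝ, E) (𝓘(ℝ, E).prod 𝓘(ℝ, E →L[ℝ] E →L[ℝ] ℝ)) ∞
      (fun x => Bundle.TotalSpace.mk' (E →L[ℝ] E →L[ℝ] ℝ)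
        (E := fun x : M => TangentSpace 𝓘(ℝ, E) x →L[ℝ] TangentSpace 𝓘(ℝ, E) x →L[ℝ] ℝ)
        x (s x)) O)
    {F : M → R4} (hF : ContMDiff 𝓘(ℝ, E) 𝓘(ℝ, R4) 1 F)
    (hFs : ∀ x ∈ O, ∀ v : E, ‖Cov.dfE (E := E) F x v‖ ^ 2 ≤ s x v v) :
    ∃ g : Met E M, (∀ x ∈ L, g.inner x = s x) ∧
      ∀ x (v : E), ‖Cov.dfE (E := E) F x v‖ ≤ √(Cov.gE g x v v) := by
  obtain ⟨g0, -⟩ := extend hO s hs hp hg isCompact_empty (empty_subset _)
  obtain ⟨C, hC0, hC⟩ := bound g0 hF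
  have h1 : ∀ x : M, IsTopologicalAddGroup (TangentSpace 𝓘(ℝ, E) x →L[ℝ] ℝ) := fun x => i1 x
  have h2 : ∀ x : M, ContinuousAdd (TangentSpace 𝓘(ℝ, E) x →L[ℝ] ℝ) := fun x => i2 x
  have h3 : ∀ x : M, ContinuousSMul ℝ (TangentSpace 𝓘(ℝ, E) x →L[ℝ] ℝ) := fun x => i3 x
  obtain ⟨σ, hσ⟩ := exists_contMDiffSection_forall_mem_convex_of_local (n := ⊤) 𝓘(ℝ, E)
    (F_fiber := E →L[ℝ] E →L[ℝ] ℝ)
    (fun x : M => TangentSpace 𝓘(ℝ, E) x →L[ℝ] TangentSpace 𝓘(ℝ, E) x →L[ℝ] ℝ)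
    (fun x => {B | ((∀ v w, B v w = B w v) ∧ ∀ v, v ≠ 0 → 0 < B v v) ∧ (x ∈ L → B = s x) ∧
      ∀ v : E, ‖Cov.dfE (E := E) F x v‖ ^ 2 ≤ B v v})
    (by
      rintro x B1 ⟨⟨h1, h2⟩, h3, h4⟩ B2 ⟨⟨h1', h2'⟩, h3', h4'⟩ a b ha hb hab
      refine ⟨⟨fun v w => ?_, fun v hv => ?_⟩, fun hx => ?_, fun v => ?_⟩
      · change a * B1 v w + b * B2 v w = a * B1 w v + b * B2 w v
        rw [h1, h1']
      · change 0 < a * B1 v v + b * B2 v v
        rcases ha.eq_or_lt with rfl | ha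
        · have : b = 1 := by linarith
          rw [this]
          simpa using h2' v hv
        · exact add_pos_of_pos_of_nonneg (mul_pos ha (h2 v hv)) (mul_nonneg hb (h2' v hv).le)
      · rw [h3 hx, h3' hx, ← add_smul, hab, one_smul]
      · change _ ≤ a * B1 v v + b * B2 v v
        have h5 := mul_le_mul_of_nonneg_left (h4 v) ha
        have h6 := mul_le_mul_of_nonneg_left (h4' v) hb
        have h7 : ‖Cov.dfE (E := E) F x v‖ ^ 2 =
          a * ‖Cov.dfE (E := E) F x v‖ ^ 2 + b * ‖Cov.dfE (E := E) F x v‖ ^ 2 := by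
          rw [← add_mul, hab, one_mul]
        linarith)
    (by
      intro x₀
      by_cases hx : x₀ ∈ L
      · exact ⟨O, hO.mem_nhds (hLO hx), s, hg,
          fun y hy => ⟨⟨hs y hy, hp y hy⟩, fun _ => rfl, hFs y hy⟩⟩
      · refine ⟨Lᶜ, hL.isOpen_compl.mem_nhds hx, (C ^ 2) • g0.inner,
          g0.contMDiff.const_smul_section.contMDiffOn,
          fun y hy => ⟨⟨fun v w => ?_, fun v hv => ?_⟩, fun h => absurd h hy, fun v => ?_⟩⟩
        · change C ^ 2 * g0.inner y v w = C ^ 2 * g0.inner y w v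
          rw [g0.symm]
        · change 0 < C ^ 2 * g0.inner y v v
          exact mul_pos (by positivity) (g0.pos y v hv)
        · change _ ≤ C ^ 2 * Cov.gE g0 y v v
          have h5 := pow_le_pow_left₀ (norm_nonneg _) (hC y v) 2
          rwa [mul_pow, Real.sq_sqrt (gE_nonneg g0 y v)] at h5)
  exact ⟨{
    inner := σ
    symm := fun x => (hσ x).1.1
    pos := fun x => (hσ x).1.2
    isVonNBounded := fun x => bdd_of_pos (E := E) (σ x) (hσ x).1.2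
    contMDiff := σ.contMDiff }, fun x hx => (hσ x).2.1 hx,
      fun x v => Real.le_sqrt_of_sq_le ((hσ x).2.2 v)⟩

/-- the statement in a chart of a closed surface -/
theorem chart_approx (hE : Module.finrank ℝ E = 2) (x0 : M) {U K : Set E} (hU : IsOpen U)
    (hUt : U ⊆ (extChartAt 𝓘(ℝ, E) x0).target) (hK : IsCompact K) (hKU : K ⊆ U)
    {G : E → E →L[ℝ] E →L[ℝ] ℝ} (hG : ContDiffOn ℝ ∞ G U)
    (hsy : ∀ y ∈ U, ∀ v w, G y v w = G y w v)
    (hp : ∀ y ∈ U, ∀ v, v ≠ 0 → 0 < G y v v) {F : E → R4} (hF : ContDiffOn ℝ 1 F U)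
    (hs : ∀ y ∈ K, ∀ v, ‖fderiv ℝ F y v‖ ^ 2 ≤ G y v v) {ε : ℝ} (hε : 0 < ε) :
    ∃ (X : M → R4) (V : Set E), ContMDiff 𝓘(ℝ, E) 𝓘(ℝ, R4) ∞ X ∧ IsOpen V ∧ K ⊆ V ∧
      (∀ y ∈ V, ∀ v w, ⟪fderiv ℝ (X ∘ (extChartAt 𝓘(ℝ, E) x0).symm) y v,
        fderiv ℝ (X ∘ (extChartAt 𝓘(ℝ, E) x0).symm) y w⟫ = G y v w) ∧
      ∀ y ∈ K, ‖X ((extChartAt 𝓘(ℝ, E) x0).symm y) - F y‖ ≤ ε := by
  have hlc : LocallyCompactSpace M := Manifold.locallyCompact_of_finiteDimensional 𝓘(ℝ, E)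
  set φ := extChartAt 𝓘(ℝ, E) x0 with hφ
  obtain ⟨B0, hB0⟩ := hK.exists_bound_of_continuousOn (hF.continuousOn.mono hKU)
  set B := |B0| + 1 with hBd
  have hB : 0 < B := by positivity
  set τ := min (1 / 2) (ε / 2 / B) with hτ
  have hτ0 : 0 < τ := lt_min (by norm_num) (by positivity)
  have hτ1 : τ ≤ 1 / 2 := min_le_left _ _
  have hτ2 : τ * B ≤ ε / 2 := (le_div_iff₀ hB).1 (min_le_right _ _)
  obtain ⟨W, hW, hKW, hWU, hWs⟩ := spread hU hK hKU hG hp hF hs (l := 1 - τ) (by nlinarith)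
  obtain ⟨s, hs1, hs2⟩ := exists_form x0 hW (hG.mono hWU)
  have hsrc : ∀ x ∈ φ.source, x ∈ (chartAt E x0).source := fun x hx => by
    rwa [hφ, extChartAt_source] at hx
  have hU' : IsOpen (φ.source ∩ φ ⁻¹' W) := isOpen_extChartAt_preimage' x0 hW
  have hK' : IsCompact (φ.symm '' K) :=
    hK.image_of_continuousOn ((continuousOn_extChartAt_symm x0).mono (hKU.trans hUt))
  have hKU' : φ.symm '' K ⊆ φ.source ∩ φ ⁻¹' W := by
    rintro _ ⟨y, hy, rfl⟩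
    refine ⟨φ.map_target (hUt (hKU hy)), ?_⟩
    rw [mem_preimage, φ.right_inv (hUt (hKU hy))]
    exact hKW hy
  obtain ⟨L2, hL2, hKL2, hL2U⟩ := exists_compact_between hK' hU' hKU'
  obtain ⟨L1, hL1, hKL1, hL12⟩ := exists_compact_between hK' isOpen_interior hKL2
  obtain ⟨L0, hL0, hKL0, hL01⟩ := exists_compact_between hK' isOpen_interior hKL1
  obtain ⟨χ, hχ0, hχ1, -⟩ := exists_contMDiffMap_zero_one_of_isClosed (n := 1) 𝓘(ℝ, E)
    (s := (interior L2)ᶜ) (t := L1) isOpen_interior.isClosed_compl hL1.isClosed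
    (disjoint_compl_left_iff_subset.2 hL12)
  have hF1 : ContDiffOn ℝ 1 (fun y => (1 - τ) • F y) W := (hF.mono hWU).const_smul _
  have hF2 : ContMDiffOn 𝓘(ℝ, E) 𝓘(ℝ, R4) 1 (fun x => (1 - τ) • F (φ x)) (φ.source ∩ φ ⁻¹' W) :=
    hF1.contMDiffOn.comp ((contMDiffOn_extChartAt (n := 1) (x := x0)).mono
      fun x hx => hsrc x hx.1) fun x hx => hx.2
  have hF3 : ContMDiff 𝓘(ℝ, E) 𝓘(ℝ, R4) 1 (fun x => χ x • (1 - τ) • F (φ x)) := by
    refine contMDiff_of_tsupport fun x hx => ?_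
    have h1 : x ∈ L2 := by
      refine (closure_minimal (fun z hz => ?_) hL2.isClosed) (tsupport_smul_subset_left _ _ hx)
      by_contra h2
      exact hz (hχ0 fun h3 => h2 (interior_subset h3))
    exact (χ.contMDiff x).smul (hF2.contMDiffAt (hU'.mem_nhds (hL2U h1)))
  have hO : interior L1 ⊆ φ.source ∩ φ ⁻¹' W :=
    interior_subset.trans (hL12.trans (interior_subset.trans hL2U))
  obtain ⟨g, hg1, hg2⟩ := extend_short isOpen_interior hL0.isClosed hL01 s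
    (fun x hx v w => (hs2 x (hsrc x (hO hx).1) v w).trans
      ((hsy _ (hWU (hO hx).2) _ _).trans (hs2 x (hsrc x (hO hx).1) w v).symm))
    (fun x hx v hv => (hp _ (hWU (hO hx).2) _ fun h0 =>
      hv (Tc_inj (hsrc x (hO hx).1) h0)).trans_eq (hs2 x (hsrc x (hO hx).1) v v).symm)
    (hs1.mono hO) hF3
    (fun x hx v => by
      have hd : DifferentiableAt ℝ F (φ x) :=
        (hF.contDiffAt (hU.mem_nhds (hWU (hO hx).2))).differentiableAt one_ne_zero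
      rw [hs2 x (hsrc x (hO hx).1), dfE_chart (hsrc x (hO hx).1)
        (h := fun y => (1 - τ) • F y) (hd.const_smul (1 - τ)) (by
          filter_upwards [isOpen_interior.mem_nhds hx] with y hy
          rw [hχ1 (interior_subset hy), Pi.one_apply, one_smul]),
        fderiv_fun_const_smul hd, smul_apply, norm_smul, mul_pow, Real.norm_eq_abs, sq_abs]
      exact hWs _ (hO hx).2 _)
  obtain ⟨X, hX, hXF⟩ := approx g hE (lip_of_short g hF3 hg2) (half_pos hε)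
  refine ⟨X, φ.target ∩ φ.symm ⁻¹' interior L0, hX.1,
    (continuousOn_extChartAt_symm x0).isOpen_inter_preimage (isOpen_extChartAt_target x0)
      isOpen_interior, fun y hy => ⟨hUt (hKU hy), hKL0 ⟨y, hy, rfl⟩⟩, fun y hy v w => ?_,
    fun y hy => ?_⟩
  · have hx : φ.symm y ∈ (chartAt E x0).source := hsrc _ (φ.map_target hy.1)
    have hy' : φ (φ.symm y) = y := φ.right_inv hy.1
    have hd : DifferentiableAt ℝ (X ∘ φ.symm) (φ (φ.symm y)) := by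
      rw [hy']
      exact ((hX.1.comp_contMDiffOn (contMDiffOn_extChartAt_symm x0)).contDiffOn.contDiffAt
        ((isOpen_extChartAt_target x0).mem_nhds hy.1)).differentiableAt (by simp)
    have he : X =ᶠ[𝓝 (φ.symm y)] fun z => (X ∘ φ.symm) (φ z) := by
      filter_upwards [(isOpen_extChartAt_source (I := 𝓘(ℝ, E)) x0).mem_nhds (φ.map_target hy.1)]
        with z hz
      rw [Function.comp_apply, φ.left_inv hz]
    obtain ⟨v, rfl⟩ := Tc_surj hx v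
    obtain ⟨w, rfl⟩ := Tc_surj hx w
    have h1 := dfE_chart hx hd he v
    have h2 := dfE_chart hx hd he w
    have h3 := hs2 _ hx v w
    rw [hy'] at h1 h2 h3
    rw [← h1, ← h2, ← h3, ← hg1 _ (interior_subset hy.2)]
    exact hX.2 _ v w
  · have h1 := hXF (φ.symm y)
    rw [hχ1 (interior_subset (hKL1 ⟨y, hy, rfl⟩)), Pi.one_apply, one_smul,
      φ.right_inv (hUt (hKU hy))] at h1
    have h2 : ‖τ • F y‖ ≤ ε / 2 := by
      rw [norm_smul, Real.norm_of_nonneg hτ0.le]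
      refine le_trans (mul_le_mul_of_nonneg_left ?_ hτ0.le) hτ2
      exact (hB0 y hy).trans ((le_abs_self _).trans (by rw [hBd]; linarith))
    have e : X (φ.symm y) - F y = (X (φ.symm y) - (1 - τ) • F y) - τ • F y := by
      rw [sub_smul, one_smul]
      abel
    rw [e]
    linarith [norm_sub_le (X (φ.symm y) - (1 - τ) • F y) (τ • F y)]

/-- **planar sets** -/
theorem plane {U K : Set (EuclideanSpace ℝ (Fin 2))} (hU : IsOpen U) (hK : IsCompact K)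
    (hKU : K ⊆ U) {G : EuclideanSpace ℝ (Fin 2) →
      EuclideanSpace ℝ (Fin 2) →L[ℝ] EuclideanSpace ℝ (Fin 2) →L[ℝ] ℝ} (hG : ContDiffOn ℝ ∞ G U)
    (hsy : ∀ y ∈ U, ∀ v w, G y v w = G y w v) (hp : ∀ y ∈ U, ∀ v, v ≠ 0 → 0 < G y v v)
    {F : EuclideanSpace ℝ (Fin 2) → R4} (hF : ContDiffOn ℝ 1 F U)
    (hs : ∀ y ∈ K, ∀ v, ‖fderiv ℝ F y v‖ ^ 2 ≤ G y v v) {ε : ℝ} (hε : 0 < ε) :
    ∃ (X : EuclideanSpace ℝ (Fin 2) → R4) (V : Set (EuclideanSpace ℝ (Fin 2))),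
      ContDiff ℝ ∞ X ∧ IsOpen V ∧ K ⊆ V ∧
      (∀ y ∈ V, ∀ v w, ⟪fderiv ℝ X y v, fderiv ℝ X y w⟫ = G y v w) ∧
      ∀ y ∈ K, ‖X y - F y‖ ≤ ε := by
  have : Fact (Module.finrank ℝ (EuclideanSpace ℝ (Fin 3)) = 2 + 1) := ⟨by simp⟩
  let x0 : Metric.sphere (0 : EuclideanSpace ℝ (Fin 3)) 1 :=
    ⟨EuclideanSpace.single 0 1, by simp⟩
  have ht : (extChartAt 𝓘(ℝ, EuclideanSpace ℝ (Fin 2)) x0).target = univ := by
    rw [extChartAt_target]
    have : (chartAt (EuclideanSpace ℝ (Fin 2)) x0).target = univ := stereographic'_target (-x0)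
    rw [this]
    simp
  obtain ⟨X, V, h1, h2, h3, h4, h5⟩ := chart_approx (by simp) x0 hU (by rw [ht]; exact subset_univ _)
    hK hKU hG hsy hp hF hs hε
  refine ⟨X ∘ (extChartAt 𝓘(ℝ, EuclideanSpace ℝ (Fin 2)) x0).symm, V, ?_, h2, h3, h4, h5⟩
  have h6 := (h1.comp_contMDiffOn (contMDiffOn_extChartAt_symm x0)).contDiffOn
  rwa [ht, contDiffOn_univ] at h6

/-- **planar sets**, in any two dimensional normed space -/
theorem plane' (hE : Module.finrank ℝ E = 2) {U K : Set E} (hU : IsOpen U) (hK : IsCompact K)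
    (hKU : K ⊆ U) {G : E → E →L[ℝ] E →L[ℝ] ℝ} (hG : ContDiffOn ℝ ∞ G U)
    (hsy : ∀ y ∈ U, ∀ v w, G y v w = G y w v) (hp : ∀ y ∈ U, ∀ v, v ≠ 0 → 0 < G y v v)
    {F : E → R4} (hF : ContDiffOn ℝ 1 F U)
    (hs : ∀ y ∈ K, ∀ v, ‖fderiv ℝ F y v‖ ^ 2 ≤ G y v v) {ε : ℝ} (hε : 0 < ε) :
    ∃ (X : E → R4) (V : Set E), ContDiff ℝ ∞ X ∧ IsOpen V ∧ K ⊆ V ∧
      (∀ y ∈ V, ∀ v w, ⟪fderiv ℝ X y v, fderiv ℝ X y w⟫ = G y v w) ∧
      ∀ y ∈ K, ‖X y - F y‖ ≤ ε := by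
  let T : E ≃L[ℝ] EuclideanSpace ℝ (Fin 2) := ContinuousLinearEquiv.ofFinrankEq (by simp [hE])
  let S : EuclideanSpace ℝ (Fin 2) →L[ℝ] E := T.symm
  have hS : ∀ y, S (T y) = y := T.symm_apply_apply
  have hG1 : ContDiffOn ℝ ∞ (fun y => G (S y)) (S ⁻¹' U) := hG.comp_continuousLinearMap S
  obtain ⟨X, V, h1, h2, h3, h4, h5⟩ := plane (U := S ⁻¹' U) (K := T '' K)
    (hU.preimage S.continuous) (hK.image T.continuous)
    (by rintro _ ⟨y, hy, rfl⟩; rw [mem_preimage, hS]; exact hKU hy)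
    (G := fun y => ((ContinuousLinearMap.compL ℝ (EuclideanSpace ℝ (Fin 2)) E ℝ).flip S).comp
      ((G (S y)).comp S))
    (contDiffOn_const.clm_comp (hG1.clm_comp contDiffOn_const))
    (fun y hy v w => hsy (S y) hy (S v) (S w))
    (fun y hy v hv => hp (S y) hy (S v) fun h0 => hv (T.symm.map_eq_zero_iff.1 h0))
    (F := F ∘ S) (hF.comp_continuousLinearMap S)
    (by
      rintro _ ⟨y, hy, rfl⟩ v
      have e : fderiv ℝ (F ∘ S) (T y) = (fderiv ℝ F (S (T y))).comp S :=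
        T.symm.comp_right_fderiv
      rw [e]
      have h6 := hs y hy (S v)
      rw [← hS y] at h6
      exact h6) hε
  refine ⟨X ∘ T, T ⁻¹' V, h1.comp T.contDiff, h2.preimage T.continuous,
    fun y hy => h3 ⟨y, hy, rfl⟩, fun y hy v w => ?_, fun y hy => ?_⟩
  · rw [T.comp_right_fderiv]
    have h6 : ⟪fderiv ℝ X (T y) (T v), fderiv ℝ X (T y) (T w)⟫ =
      G (S (T y)) (S (T v)) (S (T w)) := h4 (T y) hy (T v) (T w)
    rw [hS, hS, hS] at h6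
    exact h6
  · have h6 := h5 (T y) ⟨y, hy, rfl⟩
    rwa [Function.comp_apply, hS] at h6

end Vale.Agent.N205

end
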