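import Vale.Agent.N205.Defs
import Vale.Agent.N205.Plane

open scoped ContDiff Manifold
open Bundle

namespace Vale.Agent.N205

universe u

theorem main {E : Type} [NormedAddCommGroup E] [NormedSpace ℝ E] (hE : Module.finrank ℝ E = 2)
    {M : Type u} [TopologicalSpace M] [T2Space M] [CompactSpace M] [ChartedSpace E M]
    [IsManifold 𝓘(ℝ, E) ∞ M]
    (g : ContMDiffRiemannianMetric 𝓘(ℝ, E) ∞ E (fun x : M => TangentSpace 𝓘(ℝ, E) x)) :
    (∃ X : M → EuclideanSpace ℝ (Fin 4), IsIsometricImmersion g X) ∧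
    (∀ F : M → EuclideanSpace ℝ (Fin 4),
      (∀ x y, edist (F x) (F y) ≤ riemDist g x y) ↔
      ∀ ε : ℝ, 0 < ε → ∃ X : M → EuclideanSpace ℝ (Fin 4),
        IsIsometricImmersion g X ∧ ∀ m, dist (X m) (F m) ≤ ε) ∧
    ∀ U K : Set E, IsOpen U → IsCompact K → K ⊆ U →
      ∀ h : E → E →L[ℝ] E →L[ℝ] ℝ, IsMetricOn h U →
      ∀ F : E → EuclideanSpace ℝ (Fin 4), ContDiffOn ℝ 1 F U → IsShortOn h F K →
      ∀ ε : ℝ, 0 < ε → ∃ (X : E → EuclideanSpace ℝ (Fin 4)) (V : Set E),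
        ContDiff ℝ ∞ X ∧ IsOpen V ∧ K ⊆ V ∧
        IsIsometricOn h X V ∧ ∀ y ∈ K, dist (X y) (F y) ≤ ε := by
  simp only [dist_eq_norm]
  have hfin : FiniteDimensional ℝ E :=
    FiniteDimensional.of_finrank_pos (by rw [hE]; exact two_pos)
  obtain ⟨X, h1, h2⟩ := Vale.Agent.P205.TW.full hE g
  exact ⟨⟨_, isom_vec g h1 h2⟩, fun F => ⟨fun hF ε hε => approx g hE hF hε, lip_of_approx g⟩,
    fun U K hU hK hKU h h1 F h4 h5 ε hε =>
      plane' hE hU hK hKU h1.1 (fun y hy => (h1.2 y hy).1) (fun y hy => (h1.2 y hy).2) h4 h5 hε⟩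

end Vale.Agent.N205
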