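import Vale.Agent.N205.Smooth

/-!
P205: a Nash stage and a perturbation lemma for immersions with a unit normal field.
-/

noncomputable section

set_option linter.unusedSectionVars false

open scoped ContDiff Manifold Topology RealInnerProductSpace
open Set Filter

namespace Vale.Agent.N205

open Vale.Agent.P205.F Vale.Agent.P205.TW Vale.Agent.P205.TW.Data Vale.Agent.P205.TW.DC
open Vale.Agent.P205.H366 Vale.Agent.P205.H308

universe u

/-- Euclidean `ℝ⁴` -/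
abbrev R4 := EuclideanSpace ℝ (Fin 4)

theorem gram_nonneg (x y : R4) : 0 ≤ ⟪x, x⟫ * ⟪y, y⟫ - ⟪x, y⟫ ^ 2 := by
  have h := real_inner_mul_inner_self_le x y
  nlinarith

theorem gram_pos {x y : R4} (h : ∀ s t : ℝ, s • x + t • y = 0 → s = 0 ∧ t = 0) :
    0 < ⟪x, x⟫ * ⟪y, y⟫ - ⟪x, y⟫ ^ 2 := by
  have hy : y ≠ 0 := fun h0 => one_ne_zero (h 0 1 (by simp [h0])).2
  have hc : 0 < ⟪y, y⟫ := real_inner_self_pos.2 hy
  have hz : ⟪y, y⟫ • x + (-⟪x, y⟫) • y ≠ 0 := fun h0 => hc.ne' (h _ _ h0).1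
  have h1 := real_inner_self_pos.2 hz
  simp only [inner_add_left, inner_add_right, real_inner_smul_left, real_inner_smul_right] at h1
  rw [real_inner_comm x y] at h1
  have h2 : 0 < ⟪y, y⟫ * (⟪x, x⟫ * ⟪y, y⟫ - ⟪x, y⟫ ^ 2) := by
    calc 0 < _ := h1
      _ = _ := by ring
  exact (pos_iff_pos_of_mul_pos h2).1 hc

variable {E : Type} [NormedAddCommGroup E] [NormedSpace ℝ E] [FiniteDimensional ℝ E]
  {M : Type u} [TopologicalSpace M] [ChartedSpace E M] [IsManifold 𝓘(ℝ, E) ∞ M] [CompactSpace M]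
  (K : Cov E M) (b : Module.Basis (Fin 2) ℝ E) (g : Met E M)

theorem dco {i : Fin K.n} {p : M} (hp : p ∈ K.V i) (s t : ℝ) :
    Cov.dfE (E := E) (K.co b i 0) p (s • K.XE b (i, 0) p + t • K.XE b (i, 1) p) = s ∧
    Cov.dfE (E := E) (K.co b i 1) p (s • K.XE b (i, 0) p + t • K.XE b (i, 1) p) = t := by
  have h : ∀ a a', Cov.dfE (E := E) (K.co b i a) p (K.XE b (i, a') p) =
      if a' = a then 1 else 0 := fun a a' => by
    rw [← K.Dv_co b hp a a', K.Dv_eqE b (K.co_contMDiff b i a)]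
  simp only [map_add, map_smul, h]
  simp

theorem indep {i : Fin K.n} {p : M} (hp : p ∈ K.V i) (s t : ℝ)
    (h : s • K.XE b (i, 0) p + t • K.XE b (i, 1) p = 0) : s = 0 ∧ t = 0 := by
  have h1 := dco K b hp s t
  rw [h, map_zero, map_zero] at h1
  exact ⟨by exact_mod_cast h1.1.symm, by exact_mod_cast h1.2.symm⟩

theorem span0 {i : Fin K.n} {p : M} (hp : p ∈ K.V i) (v : E) :
    ∃ s t : ℝ, v = s • K.XE b (i, 0) p + t • K.XE b (i, 1) p := by
  have h1 := K.X_span b (K.V_sub i hp) v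
  rw [K.one i p hp, Fin.sum_univ_two] at h1
  exact ⟨_, _, (one_smul ℝ v).symm.trans h1⟩

/-- uniform control of the coefficients -/
theorem span : ∃ C : ℝ, 0 < C ∧ ∀ i, ∀ p ∈ K.V i, ∀ (v : E) (s t : ℝ),
    v = s • K.XE b (i, 0) p + t • K.XE b (i, 1) p →
      |s| ≤ C * √(Cov.gE g p v v) ∧ |t| ≤ C * √(Cov.gE g p v v) := by
  choose C hC0 hC using fun j : Fin K.n × Fin 2 =>
    bound g ((K.co_contMDiff b j.1 j.2).of_le (m := 1) (by simp))
  have hs : 0 ≤ ∑ j, C j := Finset.sum_nonneg fun j _ => (hC0 j).le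
  have hle : ∀ j, C j ≤ ∑ j, C j + 1 := fun j =>
    (Finset.single_le_sum (fun j _ => (hC0 j).le) (Finset.mem_univ j)).trans (by linarith)
  refine ⟨∑ j, C j + 1, by linarith, fun i p hp v s t hv => ?_⟩
  have h1 := dco K b hp s t
  rw [← hv] at h1
  have h2 := hC (i, 0) p v
  have h3 := hC (i, 1) p v
  simp only at h2 h3
  rw [h1.1, Complex.norm_real, Real.norm_eq_abs] at h2
  rw [h1.2, Complex.norm_real, Real.norm_eq_abs] at h3
  exact ⟨h2.trans (mul_le_mul_of_nonneg_right (hle _) (Real.sqrt_nonneg _)),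
    h3.trans (mul_le_mul_of_nonneg_right (hle _) (Real.sqrt_nonneg _))⟩

section cover

variable (H : ImmN E M)

/-- lift of a map to the cover -/
def lift (G : M → R4) (a : Fin 4) (x : (lineM K b H).Pt) : ℂ := cv G a ((lineM K b H).pi x)

theorem D_lift {G : M → R4} (hG : ContMDiff 𝓘(ℝ, E) 𝓘(ℝ, R4) ∞ G) (j : Fin K.n × Fin 2)
    (a : Fin 4) (x : (lineM K b H).Pt) : (lineM K b H).cover.D j (lift K b H G a) x =
      ((K.Dv b j G ((lineM K b H).pi x) a : ℝ) : ℂ) := by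
  show (lineM K b H).cover.D j (fun x => cv G a ((lineM K b H).pi x)) x = _
  rw [Line.D_pi]
  exact D_cv K b hG j a _

theorem met_lift {G : M → R4} (hG : ContMDiff 𝓘(ℝ, E) 𝓘(ℝ, R4) ∞ G) (j k : Fin K.n × Fin 2)
    (x : (lineM K b H).Pt) : (lineM K b H).cover.met (lift K b H G) j k x =
      ((⟪K.Dv b j G ((lineM K b H).pi x), K.Dv b k G ((lineM K b H).pi x)⟫ : ℝ) : ℂ) := by
  rw [inner_eq_dt4]
  exact dot_ofReal _ _ x _ _ (fun a => D_lift K b H hG j a x) (fun a => D_lift K b H hG k a x)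

theorem descend_even {Y : Fin 4 → (lineM K b H).Pt → ℂ} (hY : ∀ a, (lineM K b H).cover.Sm (Y a))
    (hr : ∀ a, Rl (Y a)) (he : ∀ a x, Y a ((lineM K b H).sg x) = Y a x) :
    ∃ G : M → R4, ContMDiff 𝓘(ℝ, E) 𝓘(ℝ, R4) ∞ G ∧ Y = lift K b H G := by
  refine ⟨vec fun a p => ((lineM K b H).ev (Y a) p).re,
    contMDiff_vec fun a => Cov.contMDiff_re (hY a).1, ?_⟩
  funext a x
  have h1 := Line.eq_ev_of_even (L := lineM K b H) (he a) x
  show Y a x = ((((lineM K b H).ev (Y a) ((lineM K b H).pi x)).re : ℝ) : ℂ)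
  rw [← h1]
  exact Complex.ext rfl (hr a x)

/-- the Gram determinants are bounded below -/
theorem gram_low [Nonempty M] : ∃ c : ℝ, 0 < c ∧ ∀ p, c ≤ ∑ j, ∑ k,
    (⟪K.Dv b j H.F p, K.Dv b j H.F p⟫ * ⟪K.Dv b k H.F p, K.Dv b k H.F p⟫
      - ⟪K.Dv b j H.F p, K.Dv b k H.F p⟫ ^ 2) := by
  have hc : ∀ j, Continuous (K.Dv b j H.F) := fun j => (K.Dv_contMDiff b H.smF j).continuous
  have h1 : Continuous fun p => ∑ j, ∑ k,
      (⟪K.Dv b j H.F p, K.Dv b j H.F p⟫ * ⟪K.Dv b k H.F p, K.Dv b k H.F p⟫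
        - ⟪K.Dv b j H.F p, K.Dv b k H.F p⟫ ^ 2) :=
    continuous_finsetSum _ fun j _ => continuous_finsetSum _ fun k _ =>
      (((hc j).inner (hc j)).mul ((hc k).inner (hc k))).sub (((hc j).inner (hc k)).pow 2)
  obtain ⟨q, -, hq⟩ := isCompact_univ.exists_isMinOn univ_nonempty h1.continuousOn
  refine ⟨_, ?_, fun p => hq (mem_univ p)⟩
  obtain ⟨i, hi⟩ := K.cov q
  have h2 := gram_pos (x := K.Dv b (i, 0) H.F q) (y := K.Dv b (i, 1) H.F q) (fun s t hst => by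
    rw [K.Dv_eqE b H.smF, K.Dv_eqE b H.smF, ← map_smul, ← map_smul, ← map_add] at hst
    refine indep K b hi s t (H.imm q ?_)
    exact hst.trans (map_zero _).symm)
  refine h2.trans_le (le_trans ?_ (Finset.single_le_sum (f := fun j => ∑ k,
    (⟪K.Dv b j H.F q, K.Dv b j H.F q⟫ * ⟪K.Dv b k H.F q, K.Dv b k H.F q⟫
      - ⟪K.Dv b j H.F q, K.Dv b k H.F q⟫ ^ 2))
    (fun j _ => Finset.sum_nonneg fun k _ => gram_nonneg _ _) (Finset.mem_univ (i, 0))))
  exact Finset.single_le_sum (f := fun k =>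
    (⟪K.Dv b (i, 0) H.F q, K.Dv b (i, 0) H.F q⟫ * ⟪K.Dv b k H.F q, K.Dv b k H.F q⟫
      - ⟪K.Dv b (i, 0) H.F q, K.Dv b k H.F q⟫ ^ 2))
    (fun k _ => gram_nonneg _ _) (Finset.mem_univ (i, 1))

/-- a Nash stage, in components -/
theorem nash0 [T2Space M] [Nonempty M] {c η : ℝ} (hc : 0 < c) (hη : 0 < η) :
    ∃ G ξ : M → R4, ContMDiff 𝓘(ℝ, E) 𝓘(ℝ, R4) ∞ G ∧ ContMDiff 𝓘(ℝ, E) 𝓘(ℝ, R4) ∞ ξ ∧
      (∀ p, ⟪ξ p, ξ p⟫ = 1) ∧ (∀ j p, ⟪ξ p, K.Dv b j G p⟫ = 0) ∧
      (∀ p a, |G p a - H.F p a| ≤ η) ∧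
      ∀ j k p, |⟪K.Dv b j G p, K.Dv b k G p⟫ - (⟪K.Dv b j H.F p, K.Dv b k H.F p⟫
        + c * Cov.gE g p (K.XE b j p) (K.XE b k p))| ≤ η := by
  have hp := primC_cover K b H _ (gC_pos K b H g)
  have hT := tsm_gC K b H g
  obtain ⟨n, a, φ, ha, hφ, hae, hφo, hdec⟩ := hp (fun j k x => (c : ℂ) * gC K b H g j k x)
    ⟨isT_smul (fun _ => (c : ℂ)) hT.1, fun j k => ⟨DAlg.sm_smul _ _ (hT.2 j k).1, fun x => by
      rw [Complex.mul_im, (hT.2 j k).2 x, Complex.ofReal_im]; ring⟩⟩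
    (fun j k x => rfl) ⟨c, hc, fun x ξ => le_of_eq (by
      unfold qfm
      rw [Finset.mul_sum]
      refine Finset.sum_congr rfl fun j _ => ?_
      rw [Finset.mul_sum]
      refine Finset.sum_congr rfl fun k _ => ?_
      rw [Complex.re_ofReal_mul]
      ring)⟩
  obtain ⟨c0, hc0, hlow⟩ := gram_low K b H
  have hX : XC K b H = lift K b H H.F := rfl
  obtain ⟨Y, p1, p2, hY, hYr, hNY, hcl, hmet, heq⟩ := nashC (dim2_cover K b H) n a φ
    (XC K b H) (q1C K b H) (q2C K b H) c0 η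
    (fun i => (ha i).1) (fun i => (ha i).2) (fun i => (hφ i).1) (fun i => (hφ i).2)
    (fun a => (rsm_XC K b H a).1) (fun a => (rsm_XC K b H a).2) (frame_cover K b H) hc0
    (fun x => by
      simp only [hX, met_lift K b H H.smF]
      have h1 := hlow ((lineM K b H).pi x)
      exact_mod_cast h1) hη
  obtain ⟨e1, e2, -⟩ := heq (lineM K b H).sg
    (fun j u hu _ p => (isInv_cover (L := lineM K b H)).D j u hu p) (fun a p => ev_XC K b H a p)
    (fun a p => ev_q1C K b H a p) (fun a p => od_q2C K b H a p) (fun i p => hae i p)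
    (fun i p => hφo i p)
  obtain ⟨G, hG, rfl⟩ := descend_even K b H hY hYr e1
  obtain ⟨ξ, hξ, rfl⟩ := descend_even K b H hNY.s1 hNY.r1 e2
  refine ⟨G, ξ, hG, hξ, fun p => ?_, fun j p => ?_, fun p a => ?_, fun j k p => ?_⟩
  · obtain ⟨x, rfl⟩ := (isCov_cover (lineM K b H)).surj p
    have h1 := hNY.n11 x
    rw [dot_ofReal _ _ x (fun k => ξ ((lineM K b H).pi x) k) (fun k => ξ ((lineM K b H).pi x) k)
      (fun _ => rfl) (fun _ => rfl), ← inner_eq_dt4] at h1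
    exact_mod_cast h1
  · obtain ⟨x, rfl⟩ := (isCov_cover (lineM K b H)).surj p
    have h1 := hNY.t1 j x
    rw [dot_ofReal (lift K b H ξ) ((lineM K b H).cover.Dv j (lift K b H G)) x
      (fun k => ξ ((lineM K b H).pi x) k) (fun k => K.Dv b j G ((lineM K b H).pi x) k)
      (fun _ => rfl) (fun a => D_lift K b H hG j a x), ← inner_eq_dt4] at h1
    exact_mod_cast h1
  · obtain ⟨x, rfl⟩ := (isCov_cover (lineM K b H)).surj p
    have h1 : ‖((G ((lineM K b H).pi x) a : ℝ) : ℂ) - ((H.F ((lineM K b H).pi x) a : ℝ) : ℂ)‖ ≤ η :=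
      hcl a x
    rwa [← Complex.ofReal_sub, Complex.norm_real, Real.norm_eq_abs] at h1
  · obtain ⟨x, rfl⟩ := (isCov_cover (lineM K b H)).surj p
    have h1 := hmet j k x
    rw [← hdec j k x, hX, met_lift K b H hG, met_lift K b H H.smF] at h1
    have h2 : gC K b H g j k x = ((Cov.gE g ((lineM K b H).pi x) (K.XE b j ((lineM K b H).pi x))
      (K.XE b k ((lineM K b H).pi x)) : ℝ) : ℂ) := rfl
    simp only [h2] at h1
    rw [← Real.norm_eq_abs, ← Complex.norm_real]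
    push_cast
    exact h1

end cover

theorem quad_le {A B C D s t η n : ℝ} (hA : |A| ≤ η) (hB : |B| ≤ η) (hC : |C| ≤ η) (hD : |D| ≤ η)
    (hs : |s| ≤ n) (ht : |t| ≤ n) :
    |s * s * A + s * t * B + t * s * C + t * t * D| ≤ 4 * n ^ 2 * η := by
  have hn : 0 ≤ n := (abs_nonneg _).trans hs
  have h : ∀ x y Z : ℝ, |x| ≤ n → |y| ≤ n → |Z| ≤ η → |x * y * Z| ≤ n ^ 2 * η := by
    intro x y Z hx hy hZ
    rw [abs_mul, abs_mul, sq]
    exact mul_le_mul (mul_le_mul hx hy (abs_nonneg _) hn) hZ (abs_nonneg _) (mul_nonneg hn hn)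
  have h1 := abs_le.1 (h s s A hs hs hA)
  have h2 := abs_le.1 (h s t B hs ht hB)
  have h3 := abs_le.1 (h t s C ht hs hC)
  have h4 := abs_le.1 (h t t D ht ht hD)
  rw [abs_le]
  constructor <;> linarith

include K b in
/-- **a Nash stage**: the metric grows by almost exactly `c g` -/
theorem nash [T2Space M] [Nonempty M] (H : ImmN E M) {c η : ℝ} (hη : 0 < η) (hηc : η < c) :
    ∃ H' : ImmN E M, (∀ p, ‖H'.F p - H.F p‖ ≤ η) ∧ ∀ p (v : E),
      |‖Cov.dfE (E := E) H'.F p v‖ ^ 2 - (‖Cov.dfE (E := E) H.F p v‖ ^ 2 + c * Cov.gE g p v v)| ≤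
        η * Cov.gE g p v v := by
  obtain ⟨C, hC0, hC⟩ := span K b g
  set η' := min (η / 2) (η / (4 * C ^ 2)) with hη'
  have hη0 : 0 < η' := lt_min (by positivity) (by positivity)
  obtain ⟨G, ξ, hG, hξ, h1, h2, h3, h4⟩ := nash0 K b g H (hη.trans hηc) hη0
  have key : ∀ p (v : E),
      |‖Cov.dfE (E := E) G p v‖ ^ 2 - (‖Cov.dfE (E := E) H.F p v‖ ^ 2 + c * Cov.gE g p v v)| ≤
        η * Cov.gE g p v v := by
    intro p v
    obtain ⟨i, hi⟩ := K.cov p
    obtain ⟨s, t, hv⟩ := span0 K b hi v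
    obtain ⟨hs, ht⟩ := hC i p hi v s t hv
    have h5 := quad_le (h4 (i, 0) (i, 0) p) (h4 (i, 0) (i, 1) p) (h4 (i, 1) (i, 0) p)
      (h4 (i, 1) (i, 1) p) hs ht
    have h6 : 4 * (C * √(Cov.gE g p v v)) ^ 2 * η' ≤ η * Cov.gE g p v v := by
      rw [mul_pow, Real.sq_sqrt (gE_nonneg g p v)]
      have h7 : η' ≤ η / (4 * C ^ 2) := min_le_right _ _
      rw [le_div_iff₀ (by positivity)] at h7
      have h8 := mul_le_mul_of_nonneg_right h7 (gE_nonneg g p v)
      linarith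
    refine le_trans (le_of_eq ?_) (h5.trans h6)
    congr 1
    simp only [K.Dv_eqE b hG, K.Dv_eqE b H.smF, ← real_inner_self_eq_norm_sq]
    rw [hv]
    simp only [map_add, map_smul, add_apply, smul_apply, inner_add_left, inner_add_right,
      real_inner_smul_left, real_inner_smul_right, smul_eq_mul]
    ring
  refine ⟨⟨G, ξ, hG, hξ, fun p => ?_, fun p => ?_, fun p v => ?_⟩, fun p => ?_, key⟩
  · refine (injective_iff_map_eq_zero (Cov.dfE (E := E) G p : E →L[ℝ] _)).2 fun v hv => ?_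
    by_contra hne
    have h5 := (abs_le.1 (key p v)).1
    have h6 : 0 < Cov.gE g p v v := g.pos p v hne
    rw [hv, norm_zero] at h5
    nlinarith [sq_nonneg ‖Cov.dfE (E := E) H.F p v‖]
  · have h5 := h1 p
    rw [real_inner_self_eq_norm_sq] at h5
    nlinarith [norm_nonneg (ξ p)]
  · obtain ⟨i, hi⟩ := K.cov p
    obtain ⟨s, t, hv⟩ := span0 K b hi v
    have h5 : ⟪ξ p, Cov.dfE (E := E) G p (s • K.XE b (i, 0) p + t • K.XE b (i, 1) p)⟫ = 0 := by
      rw [map_add, map_smul, map_smul, inner_add_right, real_inner_smul_right,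
        real_inner_smul_right, ← K.Dv_eqE b hG, ← K.Dv_eqE b hG, h2, h2]
      ring
    rw [← hv] at h5
    exact h5
  · show ‖G p - H.F p‖ ≤ η
    rw [EuclideanSpace.norm_eq]
    refine Real.sqrt_le_iff.2 ⟨hη.le, ?_⟩
    have h5 : ∀ a, ‖(G p - H.F p) a‖ ^ 2 ≤ (η / 2) ^ 2 := fun a =>
      pow_le_pow_left₀ (norm_nonneg _) ((h3 p a).trans (min_le_left _ _)) 2
    refine (Finset.sum_le_sum fun a _ => h5 a).trans (le_of_eq ?_)
    simp
    ring

include K b in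
/-- **perturbation**: the normal field survives the addition of a shorter map -/
theorem perturb [T2Space M] (H : ImmN E M) {Φ : M → R4} (hΦ : ContMDiff 𝓘(ℝ, E) 𝓘(ℝ, R4) ∞ Φ)
    (h : ∀ p (v : E), v ≠ 0 → ‖Cov.dfE (E := E) Φ p v‖ < ‖Cov.dfE (E := E) H.F p v‖) :
    ∃ H' : ImmN E M, H'.F = fun p => H.F p + Φ p := by
  set G : M → R4 := fun p => H.F p + Φ p with hGd
  have hG : ContMDiff 𝓘(ℝ, E) 𝓘(ℝ, R4) ∞ G := H.smF.add hΦ
  have hd : ∀ p (v : E), Cov.dfE (E := E) G p v =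
      Cov.dfE (E := E) H.F p v + Cov.dfE (E := E) Φ p v := fun p v =>
    dfE_add ((H.smF p).mdifferentiableAt (by simp)) ((hΦ p).mdifferentiableAt (by simp)) v
  have key : ∀ p (v : E) (s : ℝ), Cov.dfE (E := E) G p v + s • H.ξ p = 0 → v = 0 ∧ s = 0 := by
    intro p v s hs
    have hv : v = 0 := by
      by_contra hne
      have h1 := h p v hne
      have h2 : ⟪H.ξ p, Cov.dfE (E := E) H.F p v⟫ = 0 := H.perp p v
      have h3 : Cov.dfE (E := E) Φ p v = -(Cov.dfE (E := E) H.F p v + s • H.ξ p) := by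
        rw [hd] at hs
        rw [eq_neg_iff_add_eq_zero, ← hs]
        abel
      have h4 : ‖Cov.dfE (E := E) H.F p v + s • H.ξ p‖ ^ 2 =
          ‖Cov.dfE (E := E) H.F p v‖ ^ 2 + ‖s • H.ξ p‖ ^ 2 := by
        rw [norm_add_sq_real, real_inner_smul_right, real_inner_comm, h2]
        ring
      rw [h3, norm_neg] at h1
      nlinarith [norm_nonneg (Cov.dfE (E := E) H.F p v + s • H.ξ p), sq_nonneg ‖s • H.ξ p‖]
    refine ⟨hv, ?_⟩
    rw [hv, map_zero, zero_add, smul_eq_zero] at hs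
    rcases hs with hs | hs
    · exact hs
    · have := H.unit p
      rw [hs, norm_zero] at this
      exact (zero_ne_one this).elim
  have hinj : ∀ p (v : E), Cov.dfE (E := E) G p v = 0 → v = 0 := fun p v hv =>
    (key p v 0 (by rw [hv, zero_smul, add_zero])).1
  obtain ⟨ν, hν⟩ := exists_contMDiffMap_forall_mem_convex_of_local (n := ⊤) 𝓘(ℝ, E)
    (t := fun p => {n : R4 | (∀ v : E, ⟪n, Cov.dfE (E := E) G p v⟫ = 0) ∧ 0 < ⟪n, H.ξ p⟫})
    (by
      rintro p n1 ⟨h1, h2⟩ n2 ⟨h3, h4⟩ s t hs ht hst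
      refine ⟨fun v => ?_, ?_⟩
      · rw [inner_add_left, real_inner_smul_left, real_inner_smul_left, h1, h3]; ring
      · rw [inner_add_left, real_inner_smul_left, real_inner_smul_left]
        rcases hs.eq_or_lt with rfl | hs'
        · rw [zero_add] at hst; rw [hst]; linarith
        · nlinarith [mul_pos hs' h2, mul_nonneg ht h4.le])
    (by
      intro p0
      obtain ⟨i, hi⟩ := K.cov p0
      have s1 := K.Dv_contMDiff b hG (i, 0)
      have s2 := K.Dv_contMDiff b hG (i, 1)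
      have s3 := H.smξ
      set e1 := K.Dv b (i, 0) G with he1
      set e2 := K.Dv b (i, 1) G with he2
      have si : ∀ {u w : M → R4}, ContMDiff 𝓘(ℝ, E) 𝓘(ℝ, R4) ∞ u →
          ContMDiff 𝓘(ℝ, E) 𝓘(ℝ, R4) ∞ w →
          ContMDiff 𝓘(ℝ, E) 𝓘(ℝ, ℝ) ∞ (fun p => ⟪u p, w p⟫) := fun hu hw =>
        (contDiff_inner (𝕜 := ℝ) (E := R4) (n := ∞)).comp_contMDiff (hu.prodMk_space hw)
      refine ⟨K.V i, (K.opn i).mem_nhds hi, fun p =>
        (⟪e1 p, e1 p⟫ * ⟪e2 p, e2 p⟫ - ⟪e1 p, e2 p⟫ * ⟪e1 p, e2 p⟫) • H.ξ p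
        - (⟪e2 p, e2 p⟫ * ⟪H.ξ p, e1 p⟫ - ⟪e1 p, e2 p⟫ * ⟪H.ξ p, e2 p⟫) • e1 p
        - (⟪e1 p, e1 p⟫ * ⟪H.ξ p, e2 p⟫ - ⟪e1 p, e2 p⟫ * ⟪H.ξ p, e1 p⟫) • e2 p, ?_,
        fun p hp => ?_⟩
      · exact ((((((si s1 s1).mul (si s2 s2)).sub ((si s1 s2).mul (si s1 s2))).smul s3).sub
          ((((si s2 s2).mul (si s3 s1)).sub ((si s1 s2).mul (si s3 s2))).smul s1)).sub
          ((((si s1 s1).mul (si s3 s2)).sub ((si s1 s2).mul (si s3 s1))).smul s2)).contMDiffOn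
      · have d1 : e1 p = Cov.dfE (E := E) G p (K.XE b (i, 0) p) := K.Dv_eqE b hG _ _
        have d2 : e2 p = Cov.dfE (E := E) G p (K.XE b (i, 1) p) := K.Dv_eqE b hG _ _
        have hD := gram_pos (x := e1 p) (y := e2 p) (fun s t hst => by
          rw [d1, d2, ← map_smul, ← map_smul, ← map_add] at hst
          exact indep K b hp s t (hinj p _ hst))
        rw [sq] at hD
        set D := ⟪e1 p, e1 p⟫ * ⟪e2 p, e2 p⟫ - ⟪e1 p, e2 p⟫ * ⟪e1 p, e2 p⟫ with hDd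
        set α := ⟪e2 p, e2 p⟫ * ⟪H.ξ p, e1 p⟫ - ⟪e1 p, e2 p⟫ * ⟪H.ξ p, e2 p⟫ with hα
        set β := ⟪e1 p, e1 p⟫ * ⟪H.ξ p, e2 p⟫ - ⟪e1 p, e2 p⟫ * ⟪H.ξ p, e1 p⟫ with hβ
        have n1 : ⟪D • H.ξ p - α • e1 p - β • e2 p, e1 p⟫ = 0 := by
          simp only [inner_sub_left, real_inner_smul_left]
          rw [real_inner_comm (e1 p) (e2 p), hDd, hα, hβ]
          ring
        have n2 : ⟪D • H.ξ p - α • e1 p - β • e2 p, e2 p⟫ = 0 := by
          simp only [inner_sub_left, real_inner_smul_left]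
          rw [hDd, hα, hβ]
          ring
        refine ⟨fun v => ?_, ?_⟩
        · obtain ⟨s, t, rfl⟩ := span0 K b hp v
          rw [map_add, map_smul, map_smul, inner_add_right, real_inner_smul_right,
            real_inner_smul_right, ← d1, ← d2, n1, n2]
          ring
        · have hne : D • H.ξ p - α • e1 p - β • e2 p ≠ 0 := by
            intro h0
            refine hD.ne' (key p ((-α) • K.XE b (i, 0) p + (-β) • K.XE b (i, 1) p) D ?_).2
            rw [map_add, map_smul, map_smul, ← d1, ← d2, ← h0, neg_smul, neg_smul]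
            abel
          have h1 := real_inner_self_pos.2 hne
          conv at h1 => rhs; rw [inner_sub_right, inner_sub_right, real_inner_smul_right,
            real_inner_smul_right, real_inner_smul_right, n1, n2]
          have h2 : 0 < D * ⟪D • H.ξ p - α • e1 p - β • e2 p, H.ξ p⟫ := by linarith
          exact (pos_iff_pos_of_mul_pos h2).1 hD)
  refine immN_of_pair' (E := E) G ν hG (fun p => ?_) ν.contMDiff (fun p v => (hν p).1 v)
    (fun p h0 => ?_)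
  · exact (injective_iff_map_eq_zero (Cov.dfE (E := E) G p : E →L[ℝ] _)).2 (hinj p)
  · have h1 := (hν p).2
    rw [h0, inner_zero_left] at h1
    exact lt_irrefl _ h1

end Vale.Agent.N205

end
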