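import Vale.Agent.N205.Loc
import Mathlib.Analysis.Calculus.BumpFunction.Convolution
import Mathlib.Analysis.Calculus.ContDiff.Convolution

/-!
P205: smoothing of 1-Lipschitz maps on a compact Riemannian manifold with almost the same
Lipschitz constant.
-/

noncomputable section

set_option linter.unusedSectionVars false

open scoped ContDiff Manifold Topology ENNReal Convolution
open Set Filter Manifold Metric MeasureTheory

namespace Vale.Agent.N205

open Vale.Agent.P205.F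

universe u

variable {E : Type} [NormedAddCommGroup E] [NormedSpace ℝ E] [FiniteDimensional ℝ E]
  {W : Type} [NormedAddCommGroup W] [NormedSpace ℝ W] [CompleteSpace W]

/-- mollification keeps the Lipschitz bound -/
theorem moll {f : E → W} {c : E} {ρ : ℝ} (hρ : 0 < ρ) {N : E → ℝ} (hN : Continuous N)
    (hN0 : ∀ (t : ℝ) w, N (t • w) = |t| * N w) (hN1 : ∀ w, 0 ≤ N w)
    (hf : ∀ y ∈ ball c (3 * ρ), ∀ z ∈ ball c (3 * ρ), ‖f y - f z‖ ≤ N (z - y))
    {ε : ℝ} (hε : 0 < ε) :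
    ∃ h : E → W, ContDiff ℝ ∞ h ∧
      ∀ y ∈ ball c ρ, ‖h y - f y‖ ≤ ε ∧ ∀ w, ‖fderiv ℝ h y w‖ ≤ N w := by
  borelize E
  let μ : Measure E := Measure.addHaar
  have hz : N 0 = 0 := by simpa using hN0 0 0
  have hsm : ∀ η : ℝ, 0 < η → ∃ t, 0 < t ∧ ∀ s : E, ‖s‖ < t → N s < η := by
    intro η hη
    have h1 : ∀ᶠ s in 𝓝 (0 : E), N s < η := hN.continuousAt.eventually (gt_mem_nhds (by
      rw [hz]; exact hη))
    obtain ⟨t, ht, h2⟩ := Metric.eventually_nhds_iff_ball.1 h1
    exact ⟨t, ht, fun s hs => h2 s (by simpa using hs)⟩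
  have hfc : ContinuousOn f (ball c (3 * ρ)) := by
    rw [Metric.continuousOn_iff]
    intro z hz η hη
    obtain ⟨t, ht, h2⟩ := hsm η hη
    refine ⟨t, ht, fun y hy hyz => ?_⟩
    rw [dist_eq_norm]
    refine (hf y hy z hz).trans_lt (h2 _ ?_)
    rwa [← dist_eq_norm, dist_comm]
  let χ : ContDiffBump c := ⟨2 * ρ, 5 / 2 * ρ, by positivity, by linarith⟩
  let f' : E → W := fun y => χ y • f y
  have hf'c : Continuous f' := by
    refine ContinuousOn.continuous_of_tsupport_subset (s := ball c (3 * ρ))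
      (χ.continuous.continuousOn.smul hfc) isOpen_ball ?_
    refine (tsupport_smul_subset_left _ _).trans ?_
    rw [χ.tsupport_eq]
    exact closedBall_subset_ball (by show 5 / 2 * ρ < _; linarith)
  have hf'e : ∀ y ∈ ball c (2 * ρ), f' y = f y := fun y hy => by
    simp only [f', χ.one_of_mem_closedBall (ball_subset_closedBall hy), one_smul]
  obtain ⟨t0, ht0, hNt⟩ := hsm ε hε
  set t := min t0 (ρ / 2) with ht
  have htp : 0 < t := lt_min ht0 (by positivity)
  have ht1 : t ≤ t0 := min_le_left _ _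
  have ht2 : t ≤ ρ / 2 := min_le_right _ _
  let φ : ContDiffBump (0 : E) := ⟨t / 2, t, by positivity, by linarith⟩
  let h : E → W := φ.normed μ ⋆[ContinuousLinearMap.lsmul ℝ ℝ, μ] f'
  have hh : ContDiff ℝ ∞ h :=
    φ.hasCompactSupport_normed.contDiff_convolution_left _ φ.contDiff_normed
      hf'c.locallyIntegrable
  have hex : ConvolutionExists (φ.normed μ) f' (ContinuousLinearMap.lsmul ℝ ℝ) μ :=
    φ.hasCompactSupport_normed.convolutionExists_left _ φ.continuous_normed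
      hf'c.locallyIntegrable
  have hsub : ∀ y ∈ ball c (3 / 2 * ρ), ∀ s : E, ‖s‖ < t → y - s ∈ ball c (2 * ρ) := by
    intro y hy s hs
    rw [mem_ball, dist_eq_norm] at hy ⊢
    have e : y - s - c = (y - c) - s := by abel
    rw [e]
    exact (norm_sub_le _ _).trans_lt (by linarith)
  have h23 : ball c (2 * ρ) ⊆ ball c (3 * ρ) := ball_subset_ball (by linarith)
  have hlip : ∀ y ∈ ball c (3 / 2 * ρ), ∀ z ∈ ball c (3 / 2 * ρ), ‖h y - h z‖ ≤ N (z - y) := by
    intro y hy z hz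
    have e1 : h y - h z = ∫ s, (φ.normed μ s • f' (y - s) - φ.normed μ s • f' (z - s)) ∂μ :=
      (integral_sub (hex y) (hex z)).symm
    rw [e1]
    have e2 : N (z - y) = ∫ s, φ.normed μ s * N (z - y) ∂μ := by
      rw [integral_mul_const, φ.integral_normed, one_mul]
    rw [e2]
    refine norm_integral_le_of_norm_le (φ.integrable_normed.mul_const _)
      (Eventually.of_forall fun s => ?_)
    rw [← smul_sub, norm_smul, Real.norm_of_nonneg (φ.nonneg_normed s)]
    by_cases hs : ‖s‖ < t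
    · refine mul_le_mul_of_nonneg_left ?_ (φ.nonneg_normed s)
      rw [hf'e _ (hsub y hy s hs), hf'e _ (hsub z hz s hs)]
      have h1 := hf _ (h23 (hsub y hy s hs)) _ (h23 (hsub z hz s hs))
      rwa [sub_sub_sub_cancel_right] at h1
    · have h0 : φ.normed μ s = 0 := by
        by_contra h0
        have h1 : s ∈ Function.support (φ.normed μ) := h0
        rw [φ.support_normed_eq] at h1
        exact hs (by simpa using h1)
      rw [h0, zero_mul, zero_mul]
  have h12 : ball c ρ ⊆ ball c (3 / 2 * ρ) := ball_subset_ball (by linarith)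
  refine ⟨h, hh, fun y hy => ⟨?_, fun w => ?_⟩⟩
  · have hy2 : y ∈ ball c (2 * ρ) := ball_subset_ball (by linarith) hy
    rw [← hf'e y hy2, ← dist_eq_norm]
    refine φ.dist_normed_convolution_le hf'c.aestronglyMeasurable fun x hx => ?_
    have h1 : ‖y - x‖ < t := by
      rw [mem_ball, dist_comm, dist_eq_norm] at hx
      exact hx
    have h2 : x ∈ ball c (2 * ρ) := by
      have := hsub y (h12 hy) _ h1
      rwa [sub_sub_cancel] at this
    rw [dist_eq_norm, hf'e x h2, hf'e y hy2]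
    exact (hf x (h23 h2) y (h23 hy2)).trans (hNt _ (h1.trans_le ht1)).le
  · have h1 : HasDerivAt (fun s : ℝ => y + s • w) w 0 := by
      simpa using ((hasDerivAt_id (0 : ℝ)).smul_const w).const_add y
    have h2 : HasFDerivAt h (fderiv ℝ h y) (y + (0 : ℝ) • w) := by
      rw [zero_smul, add_zero]
      exact (hh.differentiable (by simp) y).hasFDerivAt
    have h3 := h2.comp_hasDerivAt (0 : ℝ) h1
    refine h3.le_of_lip' (hN1 w) ?_
    have h4 : ∀ᶠ s in 𝓝 (0 : ℝ), y + s • w ∈ ball c (3 / 2 * ρ) := by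
      refine h1.continuousAt.eventually (isOpen_ball.mem_nhds ?_)
      simpa using h12 hy
    filter_upwards [h4] with s hs
    have h5 := hlip _ hs _ (h12 hy)
    have e : y - (y + s • w) = (-s) • w := by rw [neg_smul]; abel
    rw [e, hN0, abs_neg] at h5
    simp only [Function.comp_apply, zero_smul, add_zero, sub_zero, Real.norm_eq_abs]
    linarith

variable {M : Type u} [TopologicalSpace M] [ChartedSpace E M] [IsManifold 𝓘(ℝ, E) ∞ M]
  (g : Met E M)

/-- local smoothing -/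
theorem smooth_loc {F : M → W} (hF : ∀ x y, edist (F x) (F y) ≤ dR g x y) {r : ℝ} (hr : 1 < r)
    (x0 : M) : ∃ U : Set M, IsOpen U ∧ x0 ∈ U ∧ ∀ ε : ℝ, 0 < ε → ∃ G : M → W,
      ContMDiffOn 𝓘(ℝ, E) 𝓘(ℝ, W) ∞ G U ∧ ∀ x ∈ U, ‖G x - F x‖ ≤ ε ∧
        ∀ v : E, ‖Cov.dfE (E := E) G x v‖ ≤ r * √(Cov.gE g x v v) := by
  obtain ⟨Q, m, hm, hQ, h⟩ := loc g x0
  set φ := extChartAt 𝓘(ℝ, E) x0 with hφ
  have h1 := h r hr
  have h2 : φ.symm (φ x0) = x0 := extChartAt_to_inv x0
  rw [← h2] at h1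
  have h3 := (continuousAt_extChartAt_symm (I := 𝓘(ℝ, E)) x0).eventually h1
  rw [h2] at h3
  obtain ⟨ρ3, hρ3, hb⟩ := Metric.eventually_nhds_iff_ball.1
    (h3.and (extChartAt_target_mem_nhds (I := 𝓘(ℝ, E)) x0))
  set ρ := ρ3 / 3 with hρ
  have hρ0 : 0 < ρ := by positivity
  have e3 : ρ3 = 3 * ρ := by rw [hρ]; ring
  rw [e3] at hb
  have hQ0 : ∀ w, 0 ≤ Q w w := fun w => le_trans (by positivity) (hQ w)
  have hr0 : 0 ≤ r := by linarith
  let N : E → ℝ := fun w => √(r * Q w w)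
  have hN : Continuous N := by fun_prop
  have hN0 : ∀ (t : ℝ) w, N (t • w) = |t| * N w := by
    intro t w
    have e : r * Q (t • w) (t • w) = t ^ 2 * (r * Q w w) := by
      simp only [map_smul, smul_apply, smul_eq_mul]; ring
    simp only [N]
    rw [e, Real.sqrt_mul (sq_nonneg t), Real.sqrt_sq_eq_abs]
  have hf : ∀ y ∈ ball (φ x0) (3 * ρ), ∀ z ∈ ball (φ x0) (3 * ρ),
      ‖F (φ.symm y) - F (φ.symm z)‖ ≤ N (z - y) := by
    intro y hy z hz
    have h4 := (hF _ _).trans (dR_le_chart g (convex_ball _ _) (fun y hy => (hb y hy).2)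
      (fun y hy v => ((hb y hy).1.2 v).1) hy hz)
    rw [edist_dist, dist_eq_norm] at h4
    exact (ENNReal.ofReal_le_ofReal_iff (Real.sqrt_nonneg _)).1 h4
  refine ⟨φ.source ∩ φ ⁻¹' ball (φ x0) ρ,
    isOpen_extChartAt_preimage' x0 isOpen_ball,
    ⟨mem_extChartAt_source x0, mem_ball_self hρ0⟩, fun ε hε => ?_⟩
  obtain ⟨H, hH, hH2⟩ := moll (f := fun y => F (φ.symm y)) hρ0 hN hN0
    (fun w => Real.sqrt_nonneg _) hf hε
  have hs : ∀ x ∈ φ.source, x ∈ (chartAt E x0).source := fun x hx => by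
    rwa [hφ, extChartAt_source] at hx
  refine ⟨fun x => H (φ x), ?_, fun x hx => ⟨?_, fun v => ?_⟩⟩
  · exact hH.contMDiff.comp_contMDiffOn
      ((contMDiffOn_extChartAt (n := ∞) (x := x0)).mono fun x hx => hs x hx.1)
  · have h4 := (hH2 _ hx.2).1
    rwa [φ.left_inv hx.1] at h4
  · rw [dfE_chart (hs x hx.1) (hH.differentiable (by simp) _) EventuallyEq.rfl]
    refine ((hH2 _ hx.2).2 _).trans ?_
    have h5 := ((hb (φ x) (ball_subset_ball (by linarith) hx.2)).1.2 v).2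
    rw [φ.left_inv hx.1] at h5
    have h6 : r * Q (Tc x0 x v) (Tc x0 x v) ≤ r ^ 2 * Cov.gE g x v v := by
      have := mul_le_mul_of_nonneg_left h5 hr0
      linarith
    refine (Real.sqrt_le_sqrt h6).trans (le_of_eq ?_)
    rw [Real.sqrt_mul (sq_nonneg r), Real.sqrt_sq hr0]

theorem dfE_smul {ρ : M → ℝ} {G : M → W} {x : M}
    (hρ : MDifferentiableAt 𝓘(ℝ, E) 𝓘(ℝ, ℝ) ρ x) (hG : MDifferentiableAt 𝓘(ℝ, E) 𝓘(ℝ, W) G x)
    (v : E) : Cov.dfE (E := E) (fun y => ρ y • G y) x v =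
      ρ x • Cov.dfE (E := E) G x v + Cov.dfE (E := E) ρ x v • G x := by
  have h := mvfderiv_smul hρ hG
  have h2 := congrArg (fun L : E →L[ℝ] W => L v) h
  exact h2

theorem dfE_add {G G' : M → W} {x : M}
    (hG : MDifferentiableAt 𝓘(ℝ, E) 𝓘(ℝ, W) G x) (hG' : MDifferentiableAt 𝓘(ℝ, E) 𝓘(ℝ, W) G' x)
    (v : E) : Cov.dfE (E := E) (fun y => G y + G' y) x v =
      Cov.dfE (E := E) G x v + Cov.dfE (E := E) G' x v :=
  congrArg (fun L : E →L[ℝ] W => L v) (mfderiv_add hG hG')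

theorem dfE_const (c : W) (x : M) (v : E) : Cov.dfE (E := E) (fun _ : M => c) x v = 0 :=
  congrArg (fun L : E →L[ℝ] W => L v) (mfderiv_const (I := 𝓘(ℝ, E)) (I' := 𝓘(ℝ, W)) (c := c) (x := x))

theorem dfE_const_smul {G : M → W} {x : M} (c : ℝ)
    (hG : MDifferentiableAt 𝓘(ℝ, E) 𝓘(ℝ, W) G x) (v : E) :
    Cov.dfE (E := E) (fun y => c • G y) x v = c • Cov.dfE (E := E) G x v := by
  rw [dfE_smul (ρ := fun _ => c) mdifferentiableAt_const hG, dfE_const, zero_smul, add_zero]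

theorem dfE_sum {ι : Type*} (s : Finset ι) {G : ι → M → W}
    (hG : ∀ i, ContMDiff 𝓘(ℝ, E) 𝓘(ℝ, W) ∞ (G i)) (x : M) (v : E) :
    Cov.dfE (E := E) (fun y => ∑ i ∈ s, G i y) x v = ∑ i ∈ s, Cov.dfE (E := E) (G i) x v := by
  classical
  induction s using Finset.induction_on with
  | empty => simp only [Finset.sum_empty]; exact dfE_const 0 x v
  | insert i s hi ih =>
    simp only [Finset.sum_insert hi]
    rw [dfE_add ((hG i x).mdifferentiableAt (by simp))
      ((contMDiff_finsetSum (fun j _ => hG j) x).mdifferentiableAt (by simp)), ih]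

/-- **smoothing of 1-Lipschitz maps** -/
theorem smooth [T2Space M] [CompactSpace M] {F : M → W}
    (hF : ∀ x y, edist (F x) (F y) ≤ dR g x y) {r ε : ℝ} (hr : 1 < r) (hε : 0 < ε) :
    ∃ G : M → W, ContMDiff 𝓘(ℝ, E) 𝓘(ℝ, W) ∞ G ∧ (∀ x, ‖G x - F x‖ ≤ ε) ∧
      ∀ x (v : E), ‖Cov.dfE (E := E) G x v‖ ≤ r * √(Cov.gE g x v v) := by
  classical
  set r' := (1 + r) / 2 with hr'
  have hr1 : 1 < r' := by rw [hr']; linarith
  choose U hUo hUx hU using smooth_loc g hF hr1
  obtain ⟨t, ht⟩ := isCompact_univ.elim_finite_subcover U hUo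
    (fun x _ => mem_iUnion.2 ⟨x, hUx x⟩)
  obtain ⟨ρ, hρ⟩ := SmoothPartitionOfUnity.exists_isSubordinate 𝓘(ℝ, E) isClosed_univ
    (fun i : t => U i) (fun i => hUo i) (fun x hx => by
      obtain ⟨i, hi, hxi⟩ := mem_iUnion₂.1 (ht hx)
      exact mem_iUnion.2 ⟨⟨i, hi⟩, hxi⟩)
  have hρs : ∀ i, ContMDiff 𝓘(ℝ, E) 𝓘(ℝ, ℝ) ∞ (ρ i) := fun i => (ρ i).contMDiff
  choose C hC0 hC using fun i => bound g ((hρs i).of_le (m := 1) (by simp))
  have hCs : 0 ≤ ∑ i, C i := Finset.sum_nonneg fun i _ => (hC0 i).le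
  set η := min ε ((r - r') / (∑ i, C i + 1)) with hη
  have hη0 : 0 < η := lt_min hε (div_pos (by rw [hr']; linarith) (by linarith))
  have hη2 : η * ∑ i, C i ≤ r - r' := by
    have h1 : η ≤ (r - r') / (∑ i, C i + 1) := min_le_right _ _
    rw [le_div_iff₀ (by linarith)] at h1
    nlinarith
  choose G hG1 hG2 using fun i : t => hU i η hη0
  have hsum : ∀ x, ∑ i, ρ i x = 1 := fun x => by
    rw [← finsum_eq_sum_of_fintype]
    exact ρ.sum_eq_one (mem_univ x)
  have hsm : ∀ i, ContMDiff 𝓘(ℝ, E) 𝓘(ℝ, W) ∞ (fun x => ρ i x • G i x) := fun i =>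
    ρ.contMDiff_smul fun x hx => (hG1 i).contMDiffAt ((hUo i).mem_nhds (hρ i hx))
  have hcase : ∀ (i : t) x, x ∈ U i ∨ (ρ i : M → ℝ) =ᶠ[𝓝 x] fun _ => 0 := fun i x => by
    by_cases hx : x ∈ tsupport (ρ i)
    · exact Or.inl (hρ i hx)
    · exact Or.inr (notMem_tsupport_iff_eventuallyEq.1 hx)
  refine ⟨fun x => ∑ i, ρ i x • G i x, contMDiff_finsetSum fun i _ => hsm i, fun x => ?_,
    fun x v => ?_⟩
  · have e : ∑ i, ρ i x • G i x - F x = ∑ i, ρ i x • (G i x - F x) := by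
      simp only [smul_sub, Finset.sum_sub_distrib, ← Finset.sum_smul, hsum, one_smul]
    rw [e]
    refine (norm_sum_le _ _).trans ?_
    have h1 : ∀ i, ‖ρ i x • (G i x - F x)‖ ≤ ρ i x * ε := fun i => by
      rw [norm_smul, Real.norm_of_nonneg (ρ.nonneg i x)]
      rcases hcase i x with h | h
      · exact mul_le_mul_of_nonneg_left ((hG2 i x h).1.trans (min_le_left _ _)) (ρ.nonneg i x)
      · rw [h.eq_of_nhds, zero_mul, zero_mul]
    refine (Finset.sum_le_sum fun i _ => h1 i).trans (le_of_eq ?_)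
    rw [← Finset.sum_mul, hsum, one_mul]
  · set n := √(Cov.gE g x v v) with hn
    have hn0 : 0 ≤ n := Real.sqrt_nonneg _
    have hd0 : ∑ i, Cov.dfE (E := E) (ρ i : M → ℝ) x v = 0 := by
      rw [← dfE_sum Finset.univ hρs]
      simp only [hsum]
      exact dfE_const 1 x v
    have h1 : ∀ i, ‖Cov.dfE (E := E) (fun x => ρ i x • G i x) x v
        - Cov.dfE (E := E) (ρ i : M → ℝ) x v • F x‖ ≤ ρ i x * (r' * n) + C i * n * η := by
      intro i
      rcases hcase i x with h | h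
      · rw [dfE_smul ((hρs i x).mdifferentiableAt (by simp))
          (((hG1 i).contMDiffAt ((hUo i).mem_nhds h)).mdifferentiableAt (by simp)),
          add_sub_assoc, ← smul_sub]
        refine (norm_add_le _ _).trans (add_le_add ?_ ?_)
        · rw [norm_smul, Real.norm_of_nonneg (ρ.nonneg i x)]
          exact mul_le_mul_of_nonneg_left ((hG2 i x h).2 v) (ρ.nonneg i x)
        · rw [norm_smul]
          exact mul_le_mul (hC i x v) (hG2 i x h).1 (norm_nonneg _) (mul_nonneg (hC0 i).le hn0)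
      · have h2 : (fun x => ρ i x • G i x) =ᶠ[𝓝 x] fun _ => (0 : W) := by
          filter_upwards [h] with y hy
          rw [hy, zero_smul]
        have h3 : Cov.dfE (E := E) (fun x => ρ i x • G i x) x =
            Cov.dfE (E := E) (fun _ : M => (0 : W)) x := h2.mfderiv_eq
        have h4 : Cov.dfE (E := E) (ρ i : M → ℝ) x =
            Cov.dfE (E := E) (fun _ : M => (0 : ℝ)) x := h.mfderiv_eq
        rw [h3, h4, dfE_const, dfE_const, zero_smul, sub_zero, norm_zero, h.eq_of_nhds, zero_mul,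
          zero_add]
        exact mul_nonneg (mul_nonneg (hC0 i).le hn0) hη0.le
    have e : Cov.dfE (E := E) (fun x => ∑ i, ρ i x • G i x) x v =
        ∑ i, (Cov.dfE (E := E) (fun x => ρ i x • G i x) x v
          - Cov.dfE (E := E) (ρ i : M → ℝ) x v • F x) := by
      rw [dfE_sum Finset.univ hsm, Finset.sum_sub_distrib, ← Finset.sum_smul, hd0, zero_smul,
        sub_zero]
    rw [e]
    refine (norm_sum_le _ _).trans ((Finset.sum_le_sum fun i _ => h1 i).trans ?_)
    rw [Finset.sum_add_distrib, ← Finset.sum_mul, hsum, ← Finset.sum_mul, ← Finset.sum_mul]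
    have h5 := mul_le_mul_of_nonneg_right hη2 hn0
    nlinarith

end Vale.Agent.N205

end
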